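import Mathlib.Algebra.Module.Projective
import Mathlib.Algebra.Module.Submodule.Ker
import Mathlib.Algebra.Exact.Basic
import Mathlib.Data.Matrix.Basic
import Mathlib.Data.Matrix.Basis
import Mathlib.Data.Complex.Basic
import Mathlib.LinearAlgebra.Matrix.Module
import Mathlib.LinearAlgebra.FiniteDimensional.Basic
import Mathlib.RingTheory.Finiteness.Basic
import Mathlib.Tactic

/-!
Row 178 (S0268), team B: windows over a filtered ring.

`RR` is a `ℂ`-algebra with a filtration `F : ℤ → Submodule ℂ RR`, `WA F hF` is the algebra of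
`5 × 5` matrices with `M i j ∈ F (i - j)`.  A filtered module `Y : FM F` has a window
`Y.Win = {v : Fin 5 → Y.X | v i ∈ Y.G i}` which is a module over `WA F hF`.
-/

set_option autoImplicit false

noncomputable section

namespace Crest.Agent.R178B

open Finset

variable {RR : Type} [Ring RR] [Algebra ℂ RR]

/-- ring filtrations -/
structure RingFil (F : ℤ → Submodule ℂ RR) : Prop where
  one_mem : (1 : RR) ∈ F 0
  mul_mem : ∀ {i j : ℤ} {x y : RR}, x ∈ F i → y ∈ F j → x * y ∈ F (i + j)

/-- the index of a vertex as an integer -/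
abbrev vi (i : Fin 5) : ℤ := ((i : ℕ) : ℤ)

/-- The window algebra. -/
def WA (F : ℤ → Submodule ℂ RR) (hF : RingFil F) : Subalgebra ℂ (Matrix (Fin 5) (Fin 5) RR) where
  carrier := {M | ∀ i j, M i j ∈ F (vi i - vi j)}
  mul_mem' := by
    intro M N hM hN i j
    rw [Matrix.mul_apply]
    refine (F _).sum_mem fun k _ => ?_
    have := hF.mul_mem (hM i k) (hN k j)
    rwa [show vi i - vi k + (vi k - vi j) = vi i - vi j by ring] at this
  add_mem' := by
    intro M N hM hN i j
    exact (F _).add_mem (hM i j) (hN i j)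
  algebraMap_mem' := by
    intro c i j
    rw [Matrix.algebraMap_matrix_apply]
    split_ifs with h
    · subst h
      rw [sub_self, Algebra.algebraMap_eq_smul_one]
      exact (F 0).smul_mem c hF.one_mem
    · exact (F _).zero_mem

variable {F : ℤ → Submodule ℂ RR} {hF : RingFil F}

lemma WA.mem (M : WA F hF) (i j : Fin 5) : M.1 i j ∈ F (vi i - vi j) := M.2 i j

/-- The window algebra is finite-dimensional. -/
theorem WA.finite (h : ∀ i, Module.Finite ℂ (F i)) : Module.Finite ℂ (WA F hF) := by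
  let φ : WA F hF →ₗ[ℂ] (∀ i j : Fin 5, F (vi i - vi j)) :=
    { toFun := fun M i j => ⟨M.1 i j, M.2 i j⟩
      map_add' := fun M N => rfl
      map_smul' := fun c M => rfl }
  have hφ : Function.Injective φ := by
    intro M N h
    ext i j
    exact congrArg Subtype.val (congrFun (congrFun h i) j)
  have h2 : ∀ i : Fin 5, Module.Finite ℂ (∀ j : Fin 5, F (vi i - vi j)) := fun i => inferInstance
  have h3 : Module.Finite ℂ (∀ i j : Fin 5, F (vi i - vi j)) := Module.Finite.pi
  exact Module.Finite.of_injective φ hφ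

/-- filtered modules over the filtered ring `(RR, F)` -/
structure FM (F : ℤ → Submodule ℂ RR) where
  /-- the underlying module -/
  X : Type
  [acg : AddCommGroup X]
  [modR : Module RR X]
  /-- the filtration -/
  G : ℤ → AddSubgroup X
  smul_mem : ∀ {i j : ℤ} {r : RR} {x : X}, r ∈ F i → x ∈ G j → r • x ∈ G (i + j)

attribute [instance] FM.acg FM.modR

/-- the window of a filtered module, as an additive group -/
def FM.winSub (Y : FM F) : AddSubgroup (Fin 5 → Y.X) where
  carrier := {v | ∀ i, v i ∈ Y.G (vi i)}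
  add_mem' := fun hv hw i => (Y.G _).add_mem (hv i) (hw i)
  zero_mem' := fun i => (Y.G _).zero_mem
  neg_mem' := fun hv i => (Y.G _).neg_mem (hv i)

/-- the window of a filtered module -/
def FM.Win (Y : FM F) : Type := Y.winSub

instance (Y : FM F) : AddCommGroup Y.Win := inferInstanceAs (AddCommGroup Y.winSub)

/-- constructor for windows -/
def FM.mkWin (Y : FM F) (v : Fin 5 → Y.X) (hv : ∀ i, v i ∈ Y.G (vi i)) : Y.Win := ⟨v, hv⟩

/-- components of a window -/
def FM.Win.c {Y : FM F} (v : Y.Win) (i : Fin 5) : Y.X := v.1 i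

lemma FM.Win.mem {Y : FM F} (v : Y.Win) (i : Fin 5) : v.c i ∈ Y.G (vi i) := v.2 i

@[ext] lemma FM.Win.ext {Y : FM F} {v w : Y.Win} (h : ∀ i, v.c i = w.c i) : v = w :=
  Subtype.ext (funext h)

@[simp] lemma FM.mkWin_c (Y : FM F) (v : Fin 5 → Y.X) (hv : ∀ i, v i ∈ Y.G (vi i)) (i : Fin 5) :
    (Y.mkWin v hv).c i = v i := rfl

@[simp] lemma FM.Win.add_c {Y : FM F} (v w : Y.Win) (i : Fin 5) : (v + w).c i = v.c i + w.c i :=
  rfl

@[simp] lemma FM.Win.zero_c {Y : FM F} (i : Fin 5) : (0 : Y.Win).c i = 0 := rfl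

@[simp] lemma FM.Win.neg_c {Y : FM F} (v : Y.Win) (i : Fin 5) : (-v).c i = -(v.c i) := rfl

instance (Y : FM F) : Module (WA F hF) Y.Win where
  smul M v := Y.mkWin (fun i => ∑ j, M.1 i j • v.c j) (fun i =>
    (Y.G _).sum_mem fun j _ => by
      have := Y.smul_mem (M.2 i j) (v.mem j)
      rwa [sub_add_cancel] at this)
  one_smul v := by
    ext i
    change ∑ j, (1 : Matrix (Fin 5) (Fin 5) RR) i j • v.c j = v.c i
    simp [Matrix.one_apply, ite_smul]
  mul_smul M N v := by
    ext i
    change ∑ j, (M.1 * N.1) i j • v.c j = ∑ l, M.1 i l • ∑ j, N.1 l j • v.c j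
    simp only [Matrix.mul_apply, sum_smul, smul_sum, mul_smul]
    rw [sum_comm]
  smul_zero M := by
    ext i
    change ∑ j, M.1 i j • (0 : Y.Win).c j = 0
    simp
  smul_add M v w := by
    ext i
    change ∑ j, M.1 i j • (v + w).c j = ∑ j, M.1 i j • v.c j + ∑ j, M.1 i j • w.c j
    simp [smul_add, sum_add_distrib]
  add_smul M N v := by
    ext i
    change ∑ j, (M.1 i j + N.1 i j) • v.c j = ∑ j, M.1 i j • v.c j + ∑ j, N.1 i j • v.c j
    simp [add_smul, sum_add_distrib]
  zero_smul v := by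
    ext i
    change ∑ j, (0 : RR) • v.c j = 0
    simp

lemma FM.Win.smul_c {Y : FM F} (M : WA F hF) (v : Y.Win) (i : Fin 5) :
    (M • v).c i = ∑ j, M.1 i j • v.c j := rfl

/-- morphisms of filtered modules induce maps on windows -/
def FM.winMap (hF : RingFil F) {Y Z : FM F} (f : Y.X →ₗ[RR] Z.X)
    (hf : ∀ i, ∀ x ∈ Y.G i, f x ∈ Z.G i) : Y.Win →ₗ[WA F hF] Z.Win where
  toFun v := Z.mkWin (fun i => f (v.c i)) (fun i => hf _ _ (v.mem i))
  map_add' v w := by
    ext i
    simp
  map_smul' M v := by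
    ext i
    change f ((M • v).c i) = ∑ j, M.1 i j • f (v.c j)
    rw [FM.Win.smul_c, map_sum]
    simp

@[simp] lemma FM.winMap_c {Y Z : FM F} (f : Y.X →ₗ[RR] Z.X)
    (hf : ∀ i, ∀ x ∈ Y.G i, f x ∈ Z.G i) (v : Y.Win) (i : Fin 5) :
    (FM.winMap hF f hf v).c i = f (v.c i) := rfl

lemma FM.winMap_injective {Y Z : FM F} {f : Y.X →ₗ[RR] Z.X}
    {hf : ∀ i, ∀ x ∈ Y.G i, f x ∈ Z.G i} (h : ∀ x, f x = 0 → x = 0) :
    Function.Injective (FM.winMap hF f hf) := by
  rw [injective_iff_map_eq_zero]
  intro v hv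
  ext i
  exact h _ (congrArg (fun w : Z.Win => w.c i) hv)

lemma FM.winMap_surjective {Y Z : FM F} {f : Y.X →ₗ[RR] Z.X}
    {hf : ∀ i, ∀ x ∈ Y.G i, f x ∈ Z.G i} (h : ∀ i, ∀ z ∈ Z.G i, ∃ y ∈ Y.G i, f y = z) :
    Function.Surjective (FM.winMap hF f hf) := by
  intro w
  choose y hy hy' using fun i => h _ _ (w.mem i)
  refine ⟨Y.mkWin y hy, ?_⟩
  ext i
  exact hy' i

lemma FM.winMap_exact {Y Z W : FM F} {f : Y.X →ₗ[RR] Z.X} {g : Z.X →ₗ[RR] W.X}
    {hf : ∀ i, ∀ x ∈ Y.G i, f x ∈ Z.G i} {hg : ∀ i, ∀ x ∈ Z.G i, g x ∈ W.G i}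
    (h0 : ∀ x, g (f x) = 0) (h : ∀ i, ∀ z ∈ Z.G i, g z = 0 → ∃ y ∈ Y.G i, f y = z) :
    Function.Exact (FM.winMap hF f hf) (FM.winMap hF g hg) := by
  intro w
  constructor
  · intro hw
    have hw' : ∀ i, g (w.c i) = 0 := fun i => congrArg (fun w : W.Win => w.c i) hw
    choose y hy hy' using fun i => h _ _ (w.mem i) (hw' i)
    refine ⟨Y.mkWin y hy, ?_⟩
    ext i
    exact hy' i
  · rintro ⟨v, rfl⟩
    ext i
    exact h0 _

/-- shifted filtration: `Y.shift s` has `G i = Y.G (i - s)` -/
def FM.shift (Y : FM F) (s : ℤ) : FM F where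
  X := Y.X
  G i := Y.G (i - s)
  smul_mem := by
    intro i j r x hr hx
    have := Y.smul_mem hr hx
    rwa [show i + (j - s) = i + j - s by ring] at this

/-- finite powers -/
def FM.pow (Y : FM F) (ι : Type) : FM F where
  X := ι → Y.X
  G i :=
    { carrier := {x | ∀ l, x l ∈ Y.G i}
      add_mem' := fun hx hy l => (Y.G i).add_mem (hx l) (hy l)
      zero_mem' := fun l => (Y.G i).zero_mem
      neg_mem' := fun hx l => (Y.G i).neg_mem (hx l) }
  smul_mem := fun hr hx l => Y.smul_mem hr (hx l)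

/-- window of a power -/
def FM.winPow (hF : RingFil F) (Y : FM F) (ι : Type) :
    (Y.pow ι).Win ≃ₗ[WA F hF] (ι → Y.Win) where
  toFun v l := Y.mkWin (fun i => v.c i l) (fun i => v.mem i l)
  invFun w := (Y.pow ι).mkWin (fun i l => (w l).c i) (fun i l => (w l).mem i)
  left_inv v := rfl
  right_inv w := rfl
  map_add' v w := rfl
  map_smul' M v := by
    funext l
    ext i
    change (M • v).c i l = (M • (Y.mkWin (fun i => v.c i l) (fun i => v.mem i l))).c i
    rw [FM.Win.smul_c, FM.Win.smul_c]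
    exact Finset.sum_apply (M := fun _ => Y.X) l Finset.univ (fun j => M.1 i j • v.c j)

/-- filtered isomorphisms induce isomorphisms of windows -/
def FM.winEquiv (hF : RingFil F) {Y Z : FM F} (f : Y.X ≃ₗ[RR] Z.X)
    (hf : ∀ i, ∀ x, x ∈ Y.G i ↔ f x ∈ Z.G i) : Y.Win ≃ₗ[WA F hF] Z.Win :=
  LinearEquiv.ofBijective (FM.winMap hF f.toLinearMap (fun i x hx => (hf i x).1 hx)) <| by
    constructor
    · refine FM.winMap_injective fun x hx => ?_
      exact f.injective (by simpa using hx)
    · refine FM.winMap_surjective fun i z hz => ⟨f.symm z, ?_, by simp⟩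
      rw [hf]
      simpa using hz

section Col

/-- the left ideal `RR ε = {x | x ε = x}` (`ε` idempotent) -/
def colIdeal (ε : RR) : Submodule RR RR where
  carrier := {x | x * ε = x}
  add_mem' := fun {a b} (ha : a * ε = a) (hb : b * ε = b) => by
    change (a + b) * ε = a + b
    rw [add_mul, ha, hb]
  zero_mem' := by
    change (0 : RR) * ε = 0
    rw [zero_mul]
  smul_mem' := fun r {a} (ha : a * ε = a) => by
    change (r * a) * ε = r * a
    rw [mul_assoc, ha]

omit [Algebra ℂ RR] in
lemma mem_colIdeal {ε x : RR} : x ∈ colIdeal ε ↔ x * ε = x := Iff.rfl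

/-- the left ideal `RR ε` with its shifted filtration -/
def colFM (hF : RingFil F) (ε : RR) (s : ℤ) : FM F where
  X := colIdeal ε
  G i :=
    { carrier := {x | x.1 ∈ F (i - s)}
      add_mem' := fun ha hb => (F (i - s)).add_mem ha hb
      zero_mem' := (F (i - s)).zero_mem
      neg_mem' := fun ha => (F (i - s)).neg_mem ha }
  smul_mem := by
    intro i j r x hr hx
    have := hF.mul_mem hr hx
    rwa [show i + (j - s) = i + j - s by ring] at this

/-- the underlying ring element -/
def colVal {ε : RR} {s : ℤ} : (colFM hF ε s).X →ₗ[RR] RR := (colIdeal ε).subtype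

lemma colVal_injective {ε : RR} {s : ℤ} :
    Function.Injective (colVal : (colFM hF ε s).X →ₗ[RR] RR) := Subtype.val_injective

lemma colVal_mul {ε : RR} {s : ℤ} (x : (colFM hF ε s).X) : colVal x * ε = colVal x := x.2

/-- constructor -/
def colMk (hF : RingFil F) {ε : RR} (s : ℤ) (x : RR) (hx : x * ε = x) : (colFM hF ε s).X := ⟨x, hx⟩

@[simp] lemma colVal_mk {ε : RR} {s : ℤ} (x : RR) (hx : x * ε = x) :
    colVal (colMk hF s x hx) = x := rfl

lemma mem_colFM_G {ε : RR} {s : ℤ} {i : ℤ} {x : (colFM hF ε s).X} :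
    x ∈ (colFM hF ε s).G i ↔ colVal x ∈ F (i - s) := Iff.rfl

variable (hF) in
/-- the matrix with column `s` equal to a vector of the window -/
def colMat (ε : RR) (s : Fin 5) (v : (colFM hF ε (vi s)).Win) : WA F hF :=
  ⟨Matrix.of fun i j => if j = s then colVal (v.c i) else 0, fun i j => by
    rw [Matrix.of_apply]
    split_ifs with h
    · subst h
      exact v.mem i
    · exact (F _).zero_mem⟩

lemma colMat_apply {ε : RR} {s : Fin 5} (v : (colFM hF ε (vi s)).Win) (i j : Fin 5) :
    (colMat hF ε s v).1 i j = if j = s then colVal (v.c i) else 0 := rfl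

variable (hF) in
/-- `colMat` as a linear map -/
def colMatL (ε : RR) (s : Fin 5) : (colFM hF ε (vi s)).Win →ₗ[WA F hF] WA F hF where
  toFun := colMat hF ε s
  map_add' v w := by
    apply Subtype.ext
    ext i j
    change _ = (colMat hF ε s v).1 i j + (colMat hF ε s w).1 i j
    simp only [colMat_apply, FM.Win.add_c, map_add]
    split_ifs <;> simp
  map_smul' M v := by
    apply Subtype.ext
    ext i j
    change _ = (M.1 * (colMat hF ε s v).1) i j
    rw [Matrix.mul_apply]
    simp only [colMat_apply, FM.Win.smul_c, map_sum, map_smul, smul_eq_mul]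
    split_ifs <;> simp

variable (hF) in
/-- the generator of the window of `RR ε (-s)` -/
def colGen {ε : RR} (hε : ε * ε = ε) (hε0 : ε ∈ F 0) (s : Fin 5) : (colFM hF ε (vi s)).Win :=
  FM.mkWin _ (fun i => if i = s then colMk hF (vi s) ε hε else 0) (fun i => by
    split_ifs with h
    · subst h
      rw [mem_colFM_G, sub_self]
      exact hε0
    · exact AddSubgroup.zero_mem _)

lemma colGen_c {ε : RR} (hε : ε * ε = ε) (hε0 : ε ∈ F 0) (s i : Fin 5) :
    colVal ((colGen hF hε hε0 s).c i) = if i = s then ε else 0 := by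
  rw [colGen, FM.mkWin_c]
  split_ifs
  · rfl
  · exact map_zero _

lemma colMat_smul_gen {ε : RR} (hε : ε * ε = ε) (hε0 : ε ∈ F 0) (s : Fin 5)
    (v : (colFM hF ε (vi s)).Win) : colMat hF ε s v • colGen hF hε hε0 s = v := by
  ext i
  apply colVal_injective
  simp only [FM.Win.smul_c, map_sum, map_smul, smul_eq_mul, colMat_apply, colGen_c]
  simp [colVal_mul]

/-- Windows of `RR ε (-s)` are projective for `s = 0, .., 4`. -/
theorem projective_win_col {ε : RR} (hε : ε * ε = ε) (hε0 : ε ∈ F 0) (s : Fin 5) :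
    Module.Projective (WA F hF) (colFM hF ε (vi s)).Win := by
  refine Module.Projective.of_split (colMatL hF ε s)
    (LinearMap.toSpanSingleton (WA F hF) _ (colGen hF hε hε0 s)) ?_
  ext1 v
  exact colMat_smul_gen hε hε0 s v

/-- Maps out of the window of `RR ε (-s)` are determined by the value at the generator. -/
theorem col_hom_ext {ε : RR} (hε : ε * ε = ε) (hε0 : ε ∈ F 0) (s : Fin 5) {S : Type}
    [AddCommGroup S] [Module (WA F hF) S] (f : (colFM hF ε (vi s)).Win →ₗ[WA F hF] S)
    (h : f (colGen hF hε hε0 s) = 0) : f = 0 := by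
  ext1 v
  rw [← colMat_smul_gen hε hε0 s v, map_smul, h, smul_zero]
  rfl

variable (hF) in
/-- the diagonal idempotent `ε` at the vertex `s` -/
def diagE (ε : RR) (hε0 : ε ∈ F 0) (s : Fin 5) : WA F hF :=
  ⟨Matrix.of fun i j => if j = s then (if i = s then ε else 0) else 0, fun i j => by
    rw [Matrix.of_apply]
    split_ifs with h h'
    · subst h h'
      rwa [sub_self]
    · exact (F _).zero_mem
    · exact (F _).zero_mem⟩

lemma diagE_apply {ε : RR} (hε0 : ε ∈ F 0) (s i j : Fin 5) :
    (diagE hF ε hε0 s).1 i j = if j = s then (if i = s then ε else 0) else 0 := rfl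

lemma colMat_gen {ε : RR} (hε : ε * ε = ε) (hε0 : ε ∈ F 0) (s : Fin 5) :
    colMat hF ε s (colGen hF hε hε0 s) = diagE hF ε hε0 s := by
  apply Subtype.ext
  ext i j
  rw [colMat_apply, colGen_c, diagE_apply]

lemma diagE_smul_gen {ε : RR} (hε : ε * ε = ε) (hε0 : ε ∈ F 0) (s : Fin 5) :
    diagE hF ε hε0 s • colGen hF hε hε0 s = colGen hF hε hε0 s := by
  rw [← colMat_gen hε hε0 s, colMat_smul_gen]

/-- If the idempotent at the vertex `s` kills `S` then there are no maps from the window of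
`RR ε (-s)` to `S`. -/
theorem col_hom_eq_zero {ε : RR} (hε : ε * ε = ε) (hε0 : ε ∈ F 0) (s : Fin 5) {S : Type}
    [AddCommGroup S] [Module (WA F hF) S] (hS : ∀ x : S, diagE hF ε hε0 s • x = 0)
    (f : (colFM hF ε (vi s)).Win →ₗ[WA F hF] S) : f = 0 := by
  apply col_hom_ext hε hε0 s f
  rw [← diagE_smul_gen hε hε0 s, map_smul, hS]

variable (hF) in
/-- The map from the window of `RR ε (-s)` given by an element of `S`. -/
def colHom (ε : RR) (s : Fin 5) {S : Type} [AddCommGroup S] [Module (WA F hF) S] (x : S) :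
    (colFM hF ε (vi s)).Win →ₗ[WA F hF] S :=
  LinearMap.toSpanSingleton (WA F hF) S x ∘ₗ colMatL hF ε s

lemma colHom_gen {ε : RR} (hε : ε * ε = ε) (hε0 : ε ∈ F 0) (s : Fin 5) {S : Type}
    [AddCommGroup S] [Module (WA F hF) S] (x : S) :
    colHom hF ε s x (colGen hF hε hε0 s) = diagE hF ε hε0 s • x := by
  change colMat hF ε s (colGen hF hε hε0 s) • x = _
  rw [colMat_gen]

end Col

/-- windows of finite powers of projective windows are projective -/
theorem projective_win_pow {Y : FM F} (ι : Type) [Finite ι]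
    [Module.Projective (WA F hF) Y.Win] : Module.Projective (WA F hF) (Y.pow ι).Win := by
  classical
  have := Fintype.ofFinite ι
  have h : Module.Projective (WA F hF) (ι → Y.Win) :=
    Module.Projective.of_equiv (DFinsupp.linearEquivFunOnFintype (R := WA F hF)
      (M := fun _ : ι => Y.Win))
  exact Module.Projective.of_equiv (FM.winPow hF Y ι).symm

end Crest.Agent.R178B
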