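import Crest.Agent.R178B.Fil
import Crest.Agent.R178B.Window
import Crest.Agent.R178.Homol2

/-!
Row 178 (S0268), team B: the simple module `S` at the vertex `(aux, 4)` of the window algebra.
-/

set_option autoImplicit false

noncomputable section

namespace Crest.Agent.R178B

open Finset Crest.Agent.R178

/-- augmentation of `U` -/
def aug : U →ₐ[ℂ] ℂ := U.lift (a := (0 : ℂ)) (d := 0) (e := 0) (f := 0) (by constructor <;> simp)

namespace RR

/-- the idempotent of the main block -/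
def εm : RR := mk 1 0 0 0 0

/-- the idempotent of the auxiliary block -/
def εa : RR := mk 0 1 0 0 0

lemma εm_mul_εm : εm * εm = εm := by
  ext1 <;> simp [εm]

lemma εa_mul_εa : εa * εa = εa := by
  ext1 <;> simp [εa]

@[simp] lemma εm_ua : εm.ua = 0 := rfl
@[simp] lemma εa_ua : εa.ua = 1 := rfl

lemma mul_εm (r : RR) : r * εm = mk r.um 0 0 r.x r.y := by
  ext1 <;> simp [εm]

lemma mul_εa (r : RR) : r * εa = mk 0 r.ua r.io 0 0 := by
  ext1 <;> simp [εa]

/-- `ua` as a ring homomorphism -/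
def uaHom : RR →+* U where
  toFun := ua
  map_one' := rfl
  map_mul' _ _ := rfl
  map_zero' := rfl
  map_add' _ _ := rfl

end RR

variable {F : ℤ → Submodule ℂ RR} (hF : RingFil F)
  (hneg : ∀ i : ℤ, i < 0 → ∀ r ∈ F i, r.ua = 0)

/-- the character of the window algebra at the vertex `(aux, 4)` -/
def chi (hneg : ∀ i : ℤ, i < 0 → ∀ r ∈ F i, r.ua = 0) : WA F hF →+* ℂ where
  toFun M := aug (RR.uaHom (M.1 4 4))
  map_one' := by
    change aug (RR.uaHom ((1 : Matrix (Fin 5) (Fin 5) RR) 4 4)) = 1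
    rw [Matrix.one_apply_eq, map_one, map_one]
  map_mul' M N := by
    change aug (RR.uaHom ((M.1 * N.1) 4 4)) = _
    rw [Matrix.mul_apply, map_sum, Finset.sum_eq_single (4 : Fin 5)]
    · rw [map_mul, map_mul]
    · intro j _ hj
      have h1 : (M.1 4 j).ua = (M.1 4 j).ua := rfl
      have h2 : RR.uaHom (N.1 j 4) = 0 := by
        apply hneg _ _ _ (N.2 j 4)
        fin_cases j <;> simp [vi] at hj ⊢
      rw [map_mul, h2, mul_zero]
    · intro h
      exact absurd (Finset.mem_univ _) h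
  map_zero' := by
    change aug (RR.uaHom 0) = 0
    rw [map_zero, map_zero]
  map_add' M N := by
    change aug (RR.uaHom (M.1 4 4 + N.1 4 4)) = _
    rw [map_add, map_add]

/-- the one-dimensional module at the vertex `(aux, 4)` -/
def SS (_hF : RingFil F) (_hneg : ∀ i : ℤ, i < 0 → ∀ r ∈ F i, r.ua = 0) : Type := ℂ

instance : AddCommGroup (SS hF hneg) := inferInstanceAs (AddCommGroup ℂ)

instance : Module ℂ (SS hF hneg) := inferInstanceAs (Module ℂ ℂ)

instance : Module (WA F hF) (SS hF hneg) := Module.compHom ℂ (chi hF hneg)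

lemma SS_smul (M : WA F hF) (x : SS hF hneg) : M • x = aug ((M.1 4 4).ua) • x := rfl

/-- a nonzero element -/
def SS.one : SS hF hneg := (1 : ℂ)

lemma SS.one_ne_zero : SS.one hF hneg ≠ 0 := by
  change (1 : ℂ) ≠ 0
  exact _root_.one_ne_zero

instance : Module.Finite ℂ (SS hF hneg) := inferInstanceAs (Module.Finite ℂ ℂ)

lemma SS_diagE {ε : RR} (hε0 : ε ∈ F 0) (s : Fin 5) (x : SS hF hneg) :
    diagE hF ε hε0 s • x = aug (if 4 = s then ε.ua else 0) • x := by
  rw [SS_smul, diagE_apply]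
  by_cases h : 4 = s
  · simp [h]
  · rw [if_neg h, if_neg h]
    rfl

/-- All `Ext` groups from the window of `RR ε_m (-s)` to `S` vanish. -/
theorem EV_m (h : RR.εm ∈ F 0) (s : Fin 5) :
    EV (WA F hF) (colFM hF RR.εm (vi s)).Win (SS hF hneg) := by
  have := projective_win_col (hF := hF) RR.εm_mul_εm h s
  refine EV.of_projective fun f => col_hom_eq_zero RR.εm_mul_εm h s (fun x => ?_) f
  rw [SS_diagE]
  simp

/-- All `Ext` groups from the window of `RR ε_a (-s)`, `s < 4`, to `S` vanish. -/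
theorem EV_a (h : RR.εa ∈ F 0) (s : Fin 5) (hs : s ≠ 4) :
    EV (WA F hF) (colFM hF RR.εa (vi s)).Win (SS hF hneg) := by
  have := projective_win_col (hF := hF) RR.εa_mul_εa h s
  refine EV.of_projective fun f => col_hom_eq_zero RR.εa_mul_εa h s (fun x => ?_) f
  rw [SS_diagE, if_neg (fun h => hs h.symm)]
  simp

/-- `Hom` from the window of `RR ε_a (-4)` to `S` is nonzero. -/
theorem ENZ_a (h : RR.εa ∈ F 0) :
    ENZ (WA F hF) (colFM hF RR.εa (vi 4)).Win (SS hF hneg) 0 := by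
  refine ENZ.zero (colHom hF RR.εa 4 (SS.one hF hneg)) fun h0 => ?_
  have h1 := colHom_gen (hF := hF) RR.εa_mul_εa h 4 (SS.one hF hneg)
  rw [h0, SS_diagE] at h1
  simp at h1
  exact SS.one_ne_zero hF hneg h1.symm

/-! ## Specialization to the actual filtration of `RR` -/

/-- the filtration of `RR` is a ring filtration -/
theorem RR.ringFil : RingFil RR.fil := ⟨RR.one_mem, RR.mul_mem⟩

theorem RR.fil_hneg : ∀ i : ℤ, i < 0 → ∀ r ∈ RR.fil i, r.ua = 0 := by
  intro i hi r hr
  have h := (RR.mem_fil.1 hr).2.1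
  rw [U.fil_neg hi] at h
  exact (Submodule.mem_bot ℂ).1 h

theorem RR.εm_mem : RR.εm ∈ RR.fil 0 := by
  rw [RR.mem_fil]
  refine ⟨U.one_mem, Submodule.zero_mem _, Submodule.zero_mem _, fun k => Submodule.zero_mem _,
    fun k => Submodule.zero_mem _⟩

theorem RR.εa_mem : RR.εa ∈ RR.fil 0 := by
  rw [RR.mem_fil]
  refine ⟨Submodule.zero_mem _, U.one_mem, Submodule.zero_mem _, fun k => Submodule.zero_mem _,
    fun k => Submodule.zero_mem _⟩

/-- the window algebra of row 178 -/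
abbrev WAR : Subalgebra ℂ (Matrix (Fin 5) (Fin 5) RR) := WA RR.fil RR.ringFil

instance WAR.finite : Module.Finite ℂ WAR := WA.finite (hF := RR.ringFil) RR.fil_fg

/-- the simple module `S` over `WAR` -/
abbrev SR : Type := SS RR.ringFil RR.fil_hneg

theorem SR_ne : (SS.one RR.ringFil RR.fil_hneg : SR) ≠ 0 := SS.one_ne_zero _ _

theorem EV_mR (s : Fin 5) : EV WAR (colFM RR.ringFil RR.εm (vi s)).Win SR :=
  EV_m RR.ringFil RR.fil_hneg RR.εm_mem s

theorem EV_aR (s : Fin 5) (hs : s ≠ 4) : EV WAR (colFM RR.ringFil RR.εa (vi s)).Win SR :=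
  EV_a RR.ringFil RR.fil_hneg RR.εa_mem s hs

/-- `Hom` from the main columns to `S` vanishes. -/
theorem hom_mR (s : Fin 5) (f : (colFM RR.ringFil RR.εm (vi s)).Win →ₗ[WAR] SR) : f = 0 := by
  refine col_hom_eq_zero RR.εm_mul_εm RR.εm_mem s (fun x => ?_) f
  rw [SS_diagE]
  simp

/-- `Hom` from the auxiliary columns at `s ≠ 4` to `S` vanishes. -/
theorem hom_aR (s : Fin 5) (hs : s ≠ 4) (f : (colFM RR.ringFil RR.εa (vi s)).Win →ₗ[WAR] SR) :
    f = 0 := by
  refine col_hom_eq_zero RR.εa_mul_εa RR.εa_mem s (fun x => ?_) f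
  rw [SS_diagE, if_neg (fun h => hs h.symm)]
  simp

/-- `Hom` from the auxiliary column at `4` to `S` does not vanish. -/
theorem exists_hom_aR : ∃ f : (colFM RR.ringFil RR.εa (vi 4)).Win →ₗ[WAR] SR, f ≠ 0 := by
  refine ⟨colHom RR.ringFil RR.εa 4 (SS.one RR.ringFil RR.fil_hneg), fun h0 => ?_⟩
  have h1 := colHom_gen (hF := RR.ringFil) RR.εa_mul_εa RR.εa_mem 4
    (SS.one RR.ringFil RR.fil_hneg)
  rw [h0, SS_diagE] at h1
  simp at h1
  exact SS.one_ne_zero RR.ringFil RR.fil_hneg h1.symm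

theorem ENZ_aR : ENZ WAR (colFM RR.ringFil RR.εa (vi 4)).Win SR 0 :=
  ENZ_a RR.ringFil RR.fil_hneg RR.εa_mem

end Crest.Agent.R178B
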