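import Crest.Agent.R178B.Intf
import Crest.Agent.R178B.Simple

/-!
Row 178 (S0268), team B: the abstract final assembly.
-/

set_option autoImplicit false

noncomputable section

namespace Crest.Agent.R178B

open Crest.Agent.R178

/-! ## Shifts -/

lemma FUM.shift_zero' (N : FUM) : N.shift (((0 : ℕ) : ℤ)) = N := by
  cases N
  simp [FUM.shift]

lemma SES.shift' {N' N N'' : FUM} {f : N'.carrier →ₗ[ℂ] N.carrier}
    {g : N.carrier →ₗ[ℂ] N''.carrier} (h : SES (N'.shift 1) N N'' f g) (s : ℕ) :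
    SES (N'.shift ((s + 1 : ℕ) : ℤ)) (N.shift (s : ℤ)) (N''.shift (s : ℤ)) f g where
  hf := ⟨h.hf.a, h.hf.d, h.hf.e, h.hf.f⟩
  hg := ⟨h.hg.a, h.hg.d, h.hg.e, h.hg.f⟩
  ex :=
    { inj := h.ex.inj
      comp := h.ex.comp
      mapf := by
        intro i x hx
        apply h.ex.mapf (i - s) x
        have e : i - ((s + 1 : ℕ) : ℤ) = i - s - 1 := by push_cast; ring
        change x ∈ N'.fil (i - ((s + 1 : ℕ) : ℤ)) at hx
        rw [e] at hx
        exact hx
      mapg := fun i x hx => h.ex.mapg (i - s) x hx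
      lift := by
        intro i x hx h0
        obtain ⟨y, hy, hy'⟩ := h.ex.lift (i - s) x hx h0
        refine ⟨y, ?_, hy'⟩
        have e : i - ((s + 1 : ℕ) : ℤ) = i - s - 1 := by push_cast; ring
        change y ∈ N'.fil (i - ((s + 1 : ℕ) : ℤ))
        rw [e]
        exact hy
      surj := fun i z hz => h.ex.surj (i - s) z hz }

/-! ## Blocks -/

/-- `X` is "exact" and sends shifts of free filtered modules to powers of columns. -/
structure Blk (ε : RR) (X : FUM → FM RR.fil) : Prop where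
  ses : ∀ {N' N N'' : FUM} {f : N'.carrier →ₗ[ℂ] N.carrier} {g : N.carrier →ₗ[ℂ] N''.carrier},
    SES N' N N'' f g → ∃ (F : (X N').Win →ₗ[WAR] (X N).Win) (G : (X N).Win →ₗ[WAR] (X N'').Win),
      Function.Injective F ∧ Function.Exact F G ∧ Function.Surjective G
  free : ∀ {N : FUM} {J : Type} [Fintype J] {n : J → N.carrier}, IsFilFree N n → ∀ s : Fin 5,
    Nonempty ((X (N.shift (vi s))).Win ≃ₗ[WAR] (J → (colFM RR.ringFil ε (vi s)).Win))

section Pi

variable {R : Type} [Ring R] {J : Type} [Fintype J] {Y S : Type} [AddCommGroup Y] [Module R Y]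
  [AddCommGroup S] [Module R S]

lemma projective_pi_const [Module.Projective R Y] : Module.Projective R (J → Y) := by
  classical
  exact Module.Projective.of_equiv (DFinsupp.linearEquivFunOnFintype (R := R)
      (M := fun _ : J => Y))

lemma hom_pi_zero (h : ∀ f : Y →ₗ[R] S, f = 0) (f : (J → Y) →ₗ[R] S) : f = 0 := by
  classical
  refine LinearMap.pi_ext fun j y => ?_
  have := h (f ∘ₗ LinearMap.single R (fun _ : J => Y) j)
  simpa using LinearMap.congr_fun this y

omit [Fintype J] in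
lemma exists_hom_pi [Nonempty J] (h : ∃ f : Y →ₗ[R] S, f ≠ 0) : ∃ f : (J → Y) →ₗ[R] S, f ≠ 0 := by
  classical
  obtain ⟨f, hf⟩ := h
  obtain ⟨j⟩ := ‹Nonempty J›
  refine ⟨f ∘ₗ LinearMap.proj j, fun h0 => hf ?_⟩
  ext1 y
  have := LinearMap.congr_fun h0 (fun _ => y)
  simpa using this

end Pi

section Chain

variable {ε : RR} {X : FUM → FM RR.fil} (hX : Blk ε X)

/-- vertices -/
def ofNat5 (s : ℕ) (h : s ≤ 4) : Fin 5 := ⟨s, by omega⟩

lemma vi_ofNat5 (s : ℕ) (h : s ≤ 4) : vi (ofNat5 s h) = (s : ℤ) := rfl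

include hX

/-- the projective dimension of a constant module of the block is at most `4`. -/
theorem Blk.pdlt (hproj : ∀ s : Fin 5, Module.Projective WAR (colFM RR.ringFil ε (vi s)).Win)
    (hc : ChainStmt) (L : UM) [Module.Finite ℂ L.carrier] [Nontrivial L.carrier] :
    PDLT WAR (X L.triv).Win 5 := by
  have key := hc (fun j N => ∀ s : ℕ, s + j ≤ 4 → PDLT WAR (X (N.shift (s : ℤ))).Win (j + 1))
    ?_ ?_ L
  · have h0 := key 0 (by omega)
    rwa [FUM.shift_zero'] at h0
  · intro N J _ _ n hn s hs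
    obtain ⟨φ⟩ := hX.free hn (ofNat5 s hs)
    rw [vi_ofNat5] at φ
    have h1 := hproj (ofNat5 s hs)
    rw [vi_ofNat5] at h1
    have h2 : Module.Projective WAR (J → (colFM RR.ringFil ε (s : ℤ)).Win) :=
      projective_pi_const
    exact (PDLT.of_projective (R := WAR)).of_equiv φ.symm
  · intro j N' N N'' f g h h1 h2 s hs
    obtain ⟨F, G, hF, hFG, hG⟩ := hX.ses (h.shift' s)
    exact PDLT.right hF hFG hG (h1 (s + 1) (by omega)) ((h2 s (by omega)).mono (by omega))

/-- vanishing of `Ext` for constant modules of the block. -/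
theorem Blk.ev {S : Type} [AddCommGroup S] [Module WAR S]
    (hproj : ∀ s : Fin 5, Module.Projective WAR (colFM RR.ringFil ε (vi s)).Win)
    (hS : ∀ s : Fin 5, ∀ f : (colFM RR.ringFil ε (vi s)).Win →ₗ[WAR] S, f = 0)
    (hc : ChainStmt) (L : UM) [Module.Finite ℂ L.carrier] [Nontrivial L.carrier] :
    EV WAR (X L.triv).Win S := by
  have key := hc (fun j N => ∀ s : ℕ, s + j ≤ 4 → EV WAR (X (N.shift (s : ℤ))).Win S)
    ?_ ?_ L
  · have h0 := key 0 (by omega)
    rwa [FUM.shift_zero'] at h0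
  · intro N J _ _ n hn s hs
    obtain ⟨φ⟩ := hX.free hn (ofNat5 s hs)
    have h1 := hproj (ofNat5 s hs)
    have h3 := hS (ofNat5 s hs)
    rw [vi_ofNat5] at φ h1 h3
    have h2 : Module.Projective WAR (J → (colFM RR.ringFil ε (s : ℤ)).Win) :=
      projective_pi_const
    exact (EV.of_projective (hom_pi_zero h3)).of_equiv φ.symm
  · intro j N' N N'' f g h h1 h2 s hs
    obtain ⟨F, G, hF, hFG, hG⟩ := hX.ses (h.shift' s)
    exact EV.right hF hFG hG (h1 (s + 1) (by omega)) (h2 s (by omega))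

/-- nonvanishing of `Ext⁴` for constant modules of the block. -/
theorem Blk.enz {S : Type} [AddCommGroup S] [Module WAR S]
    (hproj : ∀ s : Fin 5, Module.Projective WAR (colFM RR.ringFil ε (vi s)).Win)
    (hS : ∀ s : Fin 5, s ≠ 4 → ∀ f : (colFM RR.ringFil ε (vi s)).Win →ₗ[WAR] S, f = 0)
    (hS4 : ∃ f : (colFM RR.ringFil ε (vi 4)).Win →ₗ[WAR] S, f ≠ 0)
    (hc : ChainStmt) (L : UM) [Module.Finite ℂ L.carrier] [Nontrivial L.carrier] :
    ENZ WAR (X L.triv).Win S 4 := by
  have key := hc (fun j N => (∀ s : ℕ, s + j < 4 → EV WAR (X (N.shift (s : ℤ))).Win S) ∧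
      ∀ s : ℕ, s + j = 4 → ENZ WAR (X (N.shift (s : ℤ))).Win S j)
    ?_ ?_ L
  · have h0 := key.2 0 (by omega)
    rwa [FUM.shift_zero'] at h0
  · intro N J _ _ n hn
    constructor
    · intro s hs
      obtain ⟨φ⟩ := hX.free hn (ofNat5 s (by omega))
      have h1 := hproj (ofNat5 s (by omega))
      have h3 := hS (ofNat5 s (by omega)) (by
        intro h
        have := congrArg Fin.val h
        change s = 4 at this
        omega)
      rw [vi_ofNat5] at φ h1 h3
      have h2 : Module.Projective WAR (J → (colFM RR.ringFil ε (s : ℤ)).Win) :=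
        projective_pi_const
      exact (EV.of_projective (hom_pi_zero h3)).of_equiv φ.symm
    · intro s hs
      obtain rfl : s = 4 := by omega
      obtain ⟨φ⟩ := hX.free hn 4
      obtain ⟨f, hf⟩ := exists_hom_pi (J := J) hS4
      exact (ENZ.zero f hf).of_equiv φ.symm
  · intro j N' N N'' f g h h1 h2
    constructor
    · intro s hs
      obtain ⟨F, G, hF, hFG, hG⟩ := hX.ses (h.shift' s)
      exact EV.right hF hFG hG (h1.1 (s + 1) (by omega)) (h2.1 s (by omega))
    · intro s hs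
      obtain ⟨F, G, hF, hFG, hG⟩ := hX.ses (h.shift' s)
      exact ENZ.shift hF hFG hG (h2.1 s (by omega)) (h1.2 (s + 1) (by omega))

end Chain

/-! ## Finiteness of windows -/

/-- Windows of finite-dimensional filtered modules are finite. -/
theorem FM.win_finite {F : ℤ → Submodule ℂ RR} (hF : RingFil F) (Y : FM F) [Module ℂ Y.X]
    [IsScalarTower ℂ RR Y.X] [Module.Finite ℂ Y.X] : Module.Finite (WA F hF) Y.Win := by
  letI : Module ℂ Y.Win := Module.compHom Y.Win (algebraMap ℂ (WA F hF))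
  haveI : IsScalarTower ℂ (WA F hF) Y.Win := by
    constructor
    intro c M v
    change (c • M) • v = (algebraMap ℂ (WA F hF) c) • (M • v)
    rw [smul_smul, Algebra.smul_def]
  have hsm : ∀ (c : ℂ) (v : Y.Win) (i : Fin 5), (c • v).c i = c • v.c i := by
    intro c v i
    change ((algebraMap ℂ (WA F hF) c) • v).c i = _
    rw [FM.Win.smul_c]
    have h : ∀ j, (algebraMap ℂ (WA F hF) c).1 i j • v.c j = if j = i then c • v.c j else 0 := by
      intro j
      change (algebraMap ℂ (Matrix (Fin 5) (Fin 5) RR) c) i j • v.c j = _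
      rw [Matrix.algebraMap_matrix_apply]
      by_cases h : i = j
      · rw [if_pos h, if_pos h.symm, algebraMap_smul]
      · rw [if_neg h, if_neg (fun h' => h h'.symm), zero_smul]
    simp only [h]
    simp
  let φ : Y.Win →ₗ[ℂ] (Fin 5 → Y.X) :=
    { toFun := fun v i => v.c i
      map_add' := fun v w => rfl
      map_smul' := fun c v => by
        funext i
        exact hsm c v i }
  have hφ : Function.Injective φ := by
    intro v w h
    ext i
    exact congrFun h i
  have : Module.Finite ℂ Y.Win := Module.Finite.of_injective φ hφ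
  exact Module.Finite.of_restrictScalars_finite ℂ (WA F hF) Y.Win

/-! ## The final statement -/

/-- all the inputs of the final assembly -/
structure Inputs (IM IA : FUM → FM RR.fil) (BM GM : UM → FM RR.fil) : Prop where
  blkM : Blk RR.εm IM
  blkA : Blk RR.εa IA
  fin : ∀ (L : UM) [Module.Finite ℂ L.carrier], Module.Finite WAR (BM L).Win
  seqM : ∀ N : UM, ∃ (j : (GM N).Win →ₗ[WAR] (IM N.triv).Win)
    (q : (IM N.triv).Win →ₗ[WAR] (BM N).Win),
    Function.Injective j ∧ Function.Exact j q ∧ Function.Surjective q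
  seqA : ∀ (N' N : UM) (i : N'.carrier →ₗ[ℂ] N.tw.carrier) (p : N.tw.carrier →ₗ[ℂ] N'.carrier),
    IsUHom i → IsUHom p → Function.Injective i → Function.Exact i N.θ →
    Function.Exact N.θ p → Function.Surjective p →
    ∃ (i' : (BM N').Win →ₗ[WAR] (IA N.tw.triv).Win) (f : (IA N.tw.triv).Win →ₗ[WAR] (GM N).Win)
      (p' : (GM N).Win →ₗ[WAR] (BM N').Win),
      Function.Injective i' ∧ Function.Exact i' f ∧ Function.Exact f p' ∧ Function.Surjective p'
  isoA : ∀ N : UM, Function.Bijective N.θ → Nonempty ((IA N.tw.triv).Win ≃ₗ[WAR] (GM N).Win)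

instance UM.tw_finite (N : UM) [Module.Finite ℂ N.carrier] : Module.Finite ℂ N.tw.carrier :=
  inferInstanceAs (Module.Finite ℂ (Fin 2 → N.carrier))

instance UM.tw_nontrivial (N : UM) [Nontrivial N.carrier] : Nontrivial N.tw.carrier :=
  inferInstanceAs (Nontrivial (Fin 2 → N.carrier))

theorem assembly {IM IA : FUM → FM RR.fil} {BM GM : UM → FM RR.fil} (h : Inputs IM IA BM GM)
    (hc : ChainStmt) {V : ℕ → UM} (hV : VnStmt V) :
    ∃ (A : Type) (_ : Ring A) (_ : Algebra ℂ A), FiniteDimensional ℂ A ∧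
      ∀ k : ℕ, ∃ N : ModuleCat.{0} A, Module.Finite A N ∧
        ¬ CategoryTheory.HasProjectiveDimensionLT N k ∧
        ∃ n : ℕ, CategoryTheory.HasProjectiveDimensionLT N n := by
  obtain ⟨hfin, hnt, hbij, hseq⟩ := hV
  have hprojM : ∀ s : Fin 5, Module.Projective WAR (colFM RR.ringFil RR.εm (vi s)).Win :=
    fun s => projective_win_col RR.εm_mul_εm RR.εm_mem s
  have hprojA : ∀ s : Fin 5, Module.Projective WAR (colFM RR.ringFil RR.εa (vi s)).Win :=
    fun s => projective_win_col RR.εa_mul_εa RR.εa_mem s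
  have hpdM : ∀ L : UM, ∀ [Module.Finite ℂ L.carrier], ∀ [Nontrivial L.carrier],
      PDLT WAR (IM L.triv).Win 5 := fun L => h.blkM.pdlt hprojM hc L
  have hpdA : ∀ L : UM, ∀ [Module.Finite ℂ L.carrier], ∀ [Nontrivial L.carrier],
      PDLT WAR (IA L.triv).Win 5 := fun L => h.blkA.pdlt hprojA hc L
  refine ⟨WAR, inferInstance, inferInstance, WAR.finite, ?_⟩
  have hfinB : ∀ n, Module.Finite WAR (BM (V n)).Win := fun n =>
    @Inputs.fin _ _ _ _ h (V n) (hfin n)
  refine pd_conclusion2 (R := WAR) (fun n => (BM (V n)).Win) (c := 5) ?_ ?_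
  · have := hfin 0
    have := hnt 0
    obtain ⟨j, q, hj, hjq, hq⟩ := h.seqM (V 0)
    obtain ⟨φ⟩ := h.isoA (V 0) hbij
    have hG : PDLT WAR (GM (V 0)).Win 5 := (hpdA (V 0).tw).of_equiv φ
    have hGn : ENZ WAR (GM (V 0)).Win SR 4 :=
      (h.blkA.enz hprojA hom_aR exists_hom_aR hc (V 0).tw).of_equiv φ
    have hEV : EV WAR (IM (V 0).triv).Win SR := h.blkM.ev hprojM hom_mR hc (V 0)
    exact ⟨PDLT.right hj hjq hq hG ((hpdM (V 0)).mono (by omega)),
      (ENZ.shift hj hjq hq hEV hGn).not_pdlt⟩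
  · intro n e he h1 h2
    have := hfin n
    have := hfin (n + 1)
    have := hnt (n + 1)
    obtain ⟨i, p, hi, hp, hi1, hi2, hp1, hp2⟩ := hseq n
    obtain ⟨i', f, p', a1, a2, a3, a4⟩ := h.seqA (V n) (V (n + 1)) i p hi hp hi1 hi2 hp1 hp2
    obtain ⟨j, q, hj, hjq, hq⟩ := h.seqM (V (n + 1))
    exact pd_step2 a1 a2 a3 a4 hj hjq hq (hpdA (V (n + 1)).tw) (hpdM (V (n + 1))) he h1 h2

end Crest.Agent.R178B
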