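import Crest.Agent.R178B.Intf

/-!
Row 178 (S0268), version B: the four one-variable steps
`L → L[D] → L[A] → L[E] → L[F]` and the theorem `chain : ChainStmt`.
-/

set_option autoImplicit false
set_option linter.all false

noncomputable section

namespace Crest.Agent.R178B

namespace Chain

/-! ## operators on `ℕ →₀ L` -/

section ops

variable {L : Type} [AddCommGroup L] [Module ℂ L]

/-- `X ^ j l ↦ X ^ j (c j l)` -/
def dg (c : ℕ → Module.End ℂ L) : Module.End ℂ (ℕ →₀ L) :=
  Finsupp.lsum ℂ fun j => Finsupp.lsingle j ∘ₗ c j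

@[simp] lemma dg_single (c : ℕ → Module.End ℂ L) (j : ℕ) (l : L) :
    dg c (Finsupp.single j l) = Finsupp.single j (c j l) := by
  simp [dg]

/-- `X ^ (j+1) l ↦ X ^ j (c j l)`, `X ^ 0 l ↦ 0` -/
def lw (c : ℕ → Module.End ℂ L) : Module.End ℂ (ℕ →₀ L) :=
  Finsupp.lsum ℂ fun j => match j with
    | 0 => 0
    | j + 1 => Finsupp.lsingle j ∘ₗ c j

@[simp] lemma lw_single_zero (c : ℕ → Module.End ℂ L) (l : L) :
    lw c (Finsupp.single 0 l) = 0 := by
  simp [lw]

@[simp] lemma lw_single_succ (c : ℕ → Module.End ℂ L) (j : ℕ) (l : L) :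
    lw c (Finsupp.single (j + 1) l) = Finsupp.single j (c j l) := by
  simp [lw]

/-- multiplication by the variable -/
def mX : Module.End ℂ (ℕ →₀ L) := mulX (k := ℂ)

@[simp] lemma mX_single (j : ℕ) (l : L) :
    (mX : Module.End ℂ (ℕ →₀ L)) (Finsupp.single j l) = Finsupp.single (j + 1) l := by
  simp [mX]

variable {G : ℤ → Submodule ℂ L}

lemma polyFil_mono (hG : ∀ i, G i ≤ G (i + 1)) (i : ℤ) : polyFil G i ≤ polyFil G (i + 1) := by
  intro p hp n
  have := hG _ (hp n)
  rwa [show i - (n : ℤ) + 1 = i + 1 - n by ring] at this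

lemma mX_mem (i : ℤ) (p : ℕ →₀ L) (hp : p ∈ polyFil G i) : mX p ∈ polyFil G (i + 1) := by
  refine map_polyFil_mem _ mX (fun j l hl => ?_) hp
  rw [mX_single]
  refine single_mem_polyFil ?_
  push_cast
  rwa [show i + 1 - ((j : ℤ) + 1) = i - j by ring]

lemma dg_mem {c : ℕ → Module.End ℂ L} (hc : ∀ j i l, l ∈ G i → c j l ∈ G (i + 1)) (i : ℤ)
    (p : ℕ →₀ L) (hp : p ∈ polyFil G i) : dg c p ∈ polyFil G (i + 1) := by
  refine map_polyFil_mem _ (dg c) (fun j l hl => ?_) hp
  rw [dg_single]
  refine single_mem_polyFil ?_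
  have := hc j _ _ hl
  rwa [show i - (j : ℤ) + 1 = i + 1 - j by ring] at this

lemma lw_mem {c : ℕ → Module.End ℂ L} (hc : ∀ j i l, l ∈ G i → c j l ∈ G (i + 1))
    (hG : ∀ i, G i ≤ G (i + 1)) (i : ℤ)
    (p : ℕ →₀ L) (hp : p ∈ polyFil G i) : lw c p ∈ polyFil G (i + 1) := by
  refine map_polyFil_mem _ (lw c) (fun j l hl => ?_) hp
  cases j with
  | zero => rw [lw_single_zero]; exact Submodule.zero_mem _
  | succ j =>
    rw [lw_single_succ]
    refine single_mem_polyFil ?_
    have := hG _ (hc j _ _ hl)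
    push_cast at this
    rwa [show i - ((j : ℤ) + 1) + 1 + 1 = i + 1 - j by ring] at this

/-- functoriality -/
def mp {L L' : Type} [AddCommGroup L] [Module ℂ L] [AddCommGroup L'] [Module ℂ L']
    (f : L' →ₗ[ℂ] L) : (ℕ →₀ L') →ₗ[ℂ] (ℕ →₀ L) := Finsupp.mapRange.linearMap f

@[simp] lemma mp_single {L L' : Type} [AddCommGroup L] [Module ℂ L] [AddCommGroup L']
    [Module ℂ L'] (f : L' →ₗ[ℂ] L) (j : ℕ) (l : L') :
    mp f (Finsupp.single j l) = Finsupp.single j (f l) := by
  simp [mp]

@[simp] lemma mp_apply {L L' : Type} [AddCommGroup L] [Module ℂ L] [AddCommGroup L']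
    [Module ℂ L'] (f : L' →ₗ[ℂ] L) (p : ℕ →₀ L') (n : ℕ) : mp f p n = f (p n) := rfl

lemma mp_mX {L L' : Type} [AddCommGroup L] [Module ℂ L] [AddCommGroup L']
    [Module ℂ L'] (f : L' →ₗ[ℂ] L) (p : ℕ →₀ L') : mp f (mX p) = mX (mp f p) := by
  have : mp f ∘ₗ mX = mX ∘ₗ mp f := by
    ext j l : 2
    simp
  exact LinearMap.congr_fun this p

/-- `[X]` is exact. -/
lemma FExact.mp {L' L L'' : Type} [AddCommGroup L'] [Module ℂ L'] [AddCommGroup L] [Module ℂ L]
    [AddCommGroup L''] [Module ℂ L''] {F' : ℤ → Submodule ℂ L'} {F : ℤ → Submodule ℂ L}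
    {F'' : ℤ → Submodule ℂ L''} {f : L' →ₗ[ℂ] L} {g : L →ₗ[ℂ] L''}
    (h : FExact F' F F'' f g) :
    FExact (polyFil F') (polyFil F) (polyFil F'') (Chain.mp f) (Chain.mp g) where
  inj := by
    intro p q hpq
    ext n
    apply h.inj
    rw [← mp_apply, ← mp_apply, hpq]
  comp x := by
    ext n
    rw [mp_apply, mp_apply, h.comp]; rfl
  mapf i x hx n := by rw [mp_apply]; exact h.mapf _ _ (hx n)
  mapg i x hx n := by rw [mp_apply]; exact h.mapg _ _ (hx n)
  lift i x hx h0 := by
    classical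
    have hn : ∀ n : ℕ, ∃ y, (y ∈ F' (i - n) ∧ f y = x n) ∧ (x n = 0 → y = 0) := by
      intro n
      by_cases hxn : x n = 0
      · exact ⟨0, ⟨Submodule.zero_mem _, by rw [hxn, map_zero]⟩, fun _ => rfl⟩
      · obtain ⟨y, hy, hy'⟩ := h.lift _ _ (hx n) (by rw [← mp_apply, h0]; rfl)
        exact ⟨y, ⟨hy, hy'⟩, fun h => absurd h hxn⟩
    choose y hy hy0 using hn
    refine ⟨Finsupp.onFinset x.support y (fun n hn => ?_), fun n => ?_, ?_⟩
    · rw [Finsupp.mem_support_iff]
      exact fun h => hn (hy0 n h)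
    · rw [Finsupp.onFinset_apply]; exact (hy n).1
    · ext n
      rw [mp_apply, Finsupp.onFinset_apply]; exact (hy n).2
  surj i x hx := by
    classical
    have hn : ∀ n : ℕ, ∃ y, (y ∈ F (i - n) ∧ g y = x n) ∧ (x n = 0 → y = 0) := by
      intro n
      by_cases hxn : x n = 0
      · exact ⟨0, ⟨Submodule.zero_mem _, by rw [hxn, map_zero]⟩, fun _ => rfl⟩
      · obtain ⟨y, hy, hy'⟩ := h.surj _ _ (hx n)
        exact ⟨y, ⟨hy, hy'⟩, fun h => absurd h hxn⟩
    choose y hy hy0 using hn
    refine ⟨Finsupp.onFinset x.support y (fun n hn => ?_), fun n => ?_, ?_⟩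
    · rw [Finsupp.mem_support_iff]
      exact fun h => hn (hy0 n h)
    · rw [Finsupp.onFinset_apply]; exact (hy n).1
    · ext n
      rw [mp_apply, Finsupp.onFinset_apply]; exact (hy n).2

/-- The basic filtered exact sequence. -/
lemma fexact_delta {φ : L →ₗ[ℂ] L} (hφ : ∀ i, ∀ l ∈ G i, φ l ∈ G (i + 1)) :
    FExact (fun i => polyFil G (i - 1)) (polyFil G) G (delta φ) (evl φ) where
  inj := delta_injective φ
  comp := evl_delta φ
  mapf i x hx := delta_mem hφ hx
  mapg i x hx := evl_mem hφ hx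
  lift i x hx h0 := exists_delta_eq hφ hx h0
  surj i z hz := exists_evl_eq φ hz

lemma delta_mX (φ : L →ₗ[ℂ] L) (p : ℕ →₀ L) : delta φ (mX p) = mX (delta φ p) := by
  have : delta φ ∘ₗ mX = mX ∘ₗ delta φ := by
    ext j l : 2
    simp [delta_apply]
  exact LinearMap.congr_fun this p

lemma evl_mX (φ : L →ₗ[ℂ] L) (p : ℕ →₀ L) : evl φ (mX p) = φ (evl φ p) := by
  have : evl φ ∘ₗ mX = φ ∘ₗ evl φ := by
    ext j l : 2
    simp [pow_succ']
  exact LinearMap.congr_fun this p

/-- extension of a linear map: `X ^ j l ↦ T ^ j (g l)` -/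
def ext {M : Type} [AddCommGroup M] [Module ℂ M] (T : Module.End ℂ M) (g : L →ₗ[ℂ] M) :
    (ℕ →₀ L) →ₗ[ℂ] M := Finsupp.lsum ℂ fun j => (T ^ j) ∘ₗ g

@[simp] lemma ext_single {M : Type} [AddCommGroup M] [Module ℂ M] (T : Module.End ℂ M)
    (g : L →ₗ[ℂ] M) (j : ℕ) (l : L) : ext T g (Finsupp.single j l) = (T ^ j) (g l) := by
  simp [ext]

lemma ext_mX {M : Type} [AddCommGroup M] [Module ℂ M] (T : Module.End ℂ M)
    (g : L →ₗ[ℂ] M) (p : ℕ →₀ L) : ext T g (mX p) = T (ext T g p) := by
  have : ext T g ∘ₗ mX = T ∘ₗ ext T g := by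
    ext j l : 2
    simp [pow_succ']
  exact LinearMap.congr_fun this p

lemma ext_mem {M : Type} [AddCommGroup M] [Module ℂ M] {T : Module.End ℂ M}
    {g : L →ₗ[ℂ] M} {H : ℤ → Submodule ℂ M} (hT : ∀ i x, x ∈ H i → T x ∈ H (i + 1))
    (hg : ∀ i x, x ∈ G i → g x ∈ H i) (i : ℤ) (p : ℕ →₀ L) (hp : p ∈ polyFil G i) :
    ext T g p ∈ H i := by
  refine map_polyFil_mem _ (ext T g) (fun j l hl => ?_) hp
  rw [ext_single]
  have := pow_mem (fun i x hx => hT i x hx) j _ _ (hg _ _ hl)
  rwa [show i - (j : ℤ) + j = i by ring] at this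

/-- induction on polynomials -/
lemma poly_ind {p : (ℕ →₀ L) → Prop} (h0 : ∀ l, p (Finsupp.single 0 l))
    (hX : ∀ x, p x → p (mX x)) (hadd : ∀ x y, p x → p y → p (x + y)) (x : ℕ →₀ L) : p x := by
  have hs : ∀ j l, p (Finsupp.single j l) := by
    intro j
    induction j with
    | zero => exact h0
    | succ j ih =>
      intro l
      rw [← mX_single]
      exact hX _ (ih l)
  induction x using Finsupp.induction_linear with
  | zero => simpa using h0 0
  | add x y hx hy => exact hadd x y hx hy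
  | single j l => exact hs j l

end ops

/-! ## The lower levels -/

/-- filtered space with one operator -/
structure M1 : Type 1 where
  carrier : Type
  [acg : AddCommGroup carrier]
  [mod : Module ℂ carrier]
  d : Module.End ℂ carrier
  fil : ℤ → Submodule ℂ carrier
  mono : ∀ i, fil i ≤ fil (i + 1)
  fd : ∀ i x, x ∈ fil i → d x ∈ fil (i + 1)

attribute [instance] M1.acg M1.mod

/-- filtered space with two commuting operators -/
structure M2 : Type 1 where
  carrier : Type
  [acg : AddCommGroup carrier]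
  [mod : Module ℂ carrier]
  a : Module.End ℂ carrier
  d : Module.End ℂ carrier
  ad : a * d = d * a
  fil : ℤ → Submodule ℂ carrier
  mono : ∀ i, fil i ≤ fil (i + 1)
  fa : ∀ i x, x ∈ fil i → a x ∈ fil (i + 1)
  fd : ∀ i x, x ∈ fil i → d x ∈ fil (i + 1)

attribute [instance] M2.acg M2.mod

/-- filtered module over the Borel subalgebra -/
structure M3 : Type 1 where
  carrier : Type
  [acg : AddCommGroup carrier]
  [mod : Module ℂ carrier]
  a : Module.End ℂ carrier
  d : Module.End ℂ carrier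
  e : Module.End ℂ carrier
  rel : IsBorel a d e
  fil : ℤ → Submodule ℂ carrier
  mono : ∀ i, fil i ≤ fil (i + 1)
  fa : ∀ i x, x ∈ fil i → a x ∈ fil (i + 1)
  fd : ∀ i x, x ∈ fil i → d x ∈ fil (i + 1)
  fe : ∀ i x, x ∈ fil i → e x ∈ fil (i + 1)

attribute [instance] M3.acg M3.mod

/-- homs of level 1 -/
structure Hom1 {N N' : M1} (φ : N.carrier →ₗ[ℂ] N'.carrier) : Prop where
  d : ∀ x, φ (N.d x) = N'.d (φ x)

/-- homs of level 2 -/
structure Hom2 {N N' : M2} (φ : N.carrier →ₗ[ℂ] N'.carrier) : Prop where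
  a : ∀ x, φ (N.a x) = N'.a (φ x)
  d : ∀ x, φ (N.d x) = N'.d (φ x)

/-- homs of level 3 -/
structure Hom3 {N N' : M3} (φ : N.carrier →ₗ[ℂ] N'.carrier) : Prop where
  a : ∀ x, φ (N.a x) = N'.a (φ x)
  d : ∀ x, φ (N.d x) = N'.d (φ x)
  e : ∀ x, φ (N.e x) = N'.e (φ x)

/-! ### The functors -/

/-- `L ↦ L[D]` -/
@[reducible] def T1 (L : Type) [AddCommGroup L] [Module ℂ L] (G : ℤ → Submodule ℂ L)
    (hG : ∀ i, G i ≤ G (i + 1)) : M1 where
  carrier := ℕ →₀ L
  d := mX
  fil := polyFil G
  mono := polyFil_mono hG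
  fd := mX_mem

/-- `L ↦ L[A]` -/
@[reducible] def T2 (N : M1) : M2 where
  carrier := ℕ →₀ N.carrier
  a := mX
  d := dg fun _ => N.d
  ad := by
    ext j l : 2
    simp [Module.End.mul_apply]
  fil := polyFil N.fil
  mono := polyFil_mono N.mono
  fa := mX_mem
  fd := dg_mem fun _ => N.fd

lemma add_const_mem {L : Type} [AddCommGroup L] [Module ℂ L] {G : ℤ → Submodule ℂ L}
    (hG : ∀ i, G i ≤ G (i + 1)) {T : Module.End ℂ L} (hT : ∀ i x, x ∈ G i → T x ∈ G (i + 1))
    (c : ℂ) (i : ℤ) (x : L) (hx : x ∈ G i) : (T + c • (1 : Module.End ℂ L)) x ∈ G (i + 1) := by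
  rw [LinearMap.add_apply, LinearMap.smul_apply, Module.End.one_apply]
  exact (G _).add_mem (hT i x hx) ((G _).smul_mem _ (hG _ hx))

/-- `L ↦ L[E]` -/
@[reducible] def T3 (N : M2) : M3 where
  carrier := ℕ →₀ N.carrier
  a := dg fun j => N.a + (j : ℂ) • 1
  d := dg fun j => N.d + (-(j : ℂ)) • 1
  e := mX
  rel := by
    have ad : ∀ x, N.a (N.d x) = N.d (N.a x) := LinearMap.congr_fun N.ad
    constructor
    · ext j l : 2
      simp only [LinearMap.comp_apply, Finsupp.lsingle_apply, Module.End.mul_apply, dg_single,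
        LinearMap.add_apply, LinearMap.smul_apply, Module.End.one_apply, map_add, map_smul, ad]
      congr 1
      module
    · ext j l : 2
      simp only [LinearMap.comp_apply, Finsupp.lsingle_apply, Module.End.mul_apply, dg_single,
        LinearMap.add_apply, LinearMap.smul_apply, Module.End.one_apply, map_add, map_smul,
        mX_single]
      rw [← Finsupp.single_add]
      congr 1
      push_cast
      module
    · ext j l : 2
      simp only [LinearMap.comp_apply, Finsupp.lsingle_apply, Module.End.mul_apply, dg_single,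
        LinearMap.add_apply, LinearMap.sub_apply, LinearMap.smul_apply, Module.End.one_apply,
        map_add, map_smul, mX_single]
      rw [← Finsupp.single_sub]
      congr 1
      push_cast
      module
  fil := polyFil N.fil
  mono := polyFil_mono N.mono
  fa := dg_mem fun _ => add_const_mem N.mono N.fa _
  fd := dg_mem fun _ => add_const_mem N.mono N.fd _
  fe := mX_mem

/-- the operators of `L[F]` -/
def opE (N : M3) : Module.End ℂ (ℕ →₀ N.carrier) :=
  (dg fun _ => N.e) + lw fun j => ((j : ℂ) + 1) • (N.a - N.d + (-(j : ℂ)) • 1)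

lemma opE_single_zero (N : M3) (l : N.carrier) :
    opE N (Finsupp.single 0 l) = Finsupp.single 0 (N.e l) := by
  simp [opE]

lemma opE_single_succ (N : M3) (j : ℕ) (l : N.carrier) :
    opE N (Finsupp.single (j + 1) l) = Finsupp.single (j + 1) (N.e l) +
      Finsupp.single j (((j : ℂ) + 1) • (N.a l - N.d l + (-(j : ℂ)) • l)) := by
  simp [opE]

/-- `L ↦ L[F]` -/
@[reducible] def T4 (N : M3) : FUM where
  carrier := ℕ →₀ N.carrier
  a := dg fun j => N.a + (-(j : ℂ)) • 1
  d := dg fun j => N.d + (j : ℂ) • 1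
  e := opE N
  f := mX
  rel := by
    have ad : ∀ x, N.a (N.d x) = N.d (N.a x) := LinearMap.congr_fun N.rel.ad
    have ae : ∀ x, N.a (N.e x) = N.e (N.a x) + N.e x := LinearMap.congr_fun N.rel.ae
    have de : ∀ x, N.d (N.e x) = N.e (N.d x) - N.e x := LinearMap.congr_fun N.rel.de
    constructor
    · ext j l : 2
      simp only [LinearMap.comp_apply, Finsupp.lsingle_apply, Module.End.mul_apply, dg_single,
        LinearMap.add_apply, LinearMap.smul_apply, Module.End.one_apply, map_add, map_smul, ad]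
      congr 1
      module
    · ext j l : 2
      cases j with
      | zero =>
        simp only [LinearMap.comp_apply, Finsupp.lsingle_apply, Module.End.mul_apply, dg_single,
          LinearMap.add_apply, LinearMap.smul_apply, Module.End.one_apply, map_add, map_smul,
          opE_single_zero, ae]
        rw [← Finsupp.single_add]
        congr 1
        push_cast
        module
      | succ j =>
        simp only [LinearMap.comp_apply, Finsupp.lsingle_apply, Module.End.mul_apply, dg_single,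
          LinearMap.add_apply, LinearMap.smul_apply, Module.End.one_apply, map_add, map_smul,
          map_sub, opE_single_succ, ae, ad]
        rw [show ∀ a b c d : ℕ →₀ N.carrier, a + b + (c + d) = (a + c) + (b + d) from
          fun a b c d => by abel]
        rw [← Finsupp.single_add, ← Finsupp.single_add]
        congr 2
        · push_cast
          module
        · push_cast
          module
    · ext j l : 2
      cases j with
      | zero =>
        simp only [LinearMap.comp_apply, Finsupp.lsingle_apply, Module.End.mul_apply, dg_single,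
          LinearMap.add_apply, LinearMap.smul_apply, Module.End.one_apply, map_add, map_smul,
          LinearMap.sub_apply,
          opE_single_zero, de]
        rw [← Finsupp.single_sub]
        congr 1
        push_cast
        module
      | succ j =>
        simp only [LinearMap.comp_apply, Finsupp.lsingle_apply, Module.End.mul_apply, dg_single,
          LinearMap.add_apply, LinearMap.smul_apply, Module.End.one_apply, map_add, map_smul,
          LinearMap.sub_apply,
          map_sub, opE_single_succ, de, ad]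
        rw [show ∀ a b c d : ℕ →₀ N.carrier, a + b - (c + d) = (a - c) + (b - d) from
          fun a b c d => by abel]
        rw [← Finsupp.single_sub, ← Finsupp.single_sub]
        congr 2
        · push_cast
          module
        · push_cast
          module
    · ext j l : 2
      simp only [LinearMap.comp_apply, Finsupp.lsingle_apply, Module.End.mul_apply, dg_single,
        LinearMap.add_apply, LinearMap.sub_apply, LinearMap.smul_apply, Module.End.one_apply,
        map_add, map_smul, mX_single]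
      rw [← Finsupp.single_sub]
      congr 1
      push_cast
      module
    · ext j l : 2
      simp only [LinearMap.comp_apply, Finsupp.lsingle_apply, Module.End.mul_apply, dg_single,
        LinearMap.add_apply, LinearMap.sub_apply, LinearMap.smul_apply, Module.End.one_apply,
        map_add, map_smul, mX_single]
      rw [← Finsupp.single_add]
      congr 1
      push_cast
      module
    · ext j l : 2
      cases j with
      | zero =>
        simp only [LinearMap.comp_apply, Finsupp.lsingle_apply, Module.End.mul_apply, dg_single,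
          LinearMap.add_apply, LinearMap.sub_apply, LinearMap.smul_apply, Module.End.one_apply,
          map_add, map_smul, mX_single, opE_single_zero, opE_single_succ]
        rw [add_sub_assoc, ← Finsupp.single_sub]
        congr 2
        push_cast
        module
      | succ j =>
        simp only [LinearMap.comp_apply, Finsupp.lsingle_apply, Module.End.mul_apply, dg_single,
          LinearMap.add_apply, LinearMap.sub_apply, LinearMap.smul_apply, Module.End.one_apply,
          map_add, map_smul, mX_single, opE_single_succ]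
        rw [add_sub_assoc, ← Finsupp.single_sub,
          add_assoc (Finsupp.single (j + 1 + 1) (N.e l)), ← Finsupp.single_add]
        congr 2
        push_cast
        module
  fil := polyFil N.fil
  mono := polyFil_mono N.mono
  fa := dg_mem fun _ => add_const_mem N.mono N.fa _
  fd := dg_mem fun _ => add_const_mem N.mono N.fd _
  fe := by
    intro i x hx
    rw [opE, LinearMap.add_apply]
    refine (polyFil N.fil _).add_mem (dg_mem (fun _ => N.fe) i x hx) (lw_mem ?_ N.mono i x hx)
    intro j i l hl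
    rw [LinearMap.smul_apply]
    refine (N.fil _).smul_mem _ (add_const_mem N.mono ?_ _ i l hl)
    intro i x hx
    rw [LinearMap.sub_apply]
    exact (N.fil _).sub_mem (N.fa i x hx) (N.fd i x hx)
  ff := mX_mem

/-! ### homs out of the polynomial modules -/

lemma hom2_of {N : M1} {M : M2} (φ : (T2 N).carrier →ₗ[ℂ] M.carrier)
    (hX : ∀ x, φ (mX x) = M.a (φ x))
    (hd : ∀ l, φ ((T2 N).d (Finsupp.single 0 l)) = M.d (φ (Finsupp.single 0 l))) : Hom2 φ where
  a := hX
  d := by
    have hN := LinearMap.congr_fun (T2 N).ad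
    have hM := LinearMap.congr_fun M.ad
    refine poly_ind hd ?_ ?_
    · intro x hx
      have h1 : (T2 N).d (mX x) = mX ((T2 N).d x) := (hN x).symm
      rw [h1, hX, hX, hx]
      exact hM _
    · intro x y hx hy
      rw [map_add, map_add, map_add, map_add, hx, hy]

lemma hom3_of {N : M2} {M : M3} (φ : (T3 N).carrier →ₗ[ℂ] M.carrier)
    (hX : ∀ x, φ (mX x) = M.e (φ x))
    (ha : ∀ l, φ ((T3 N).a (Finsupp.single 0 l)) = M.a (φ (Finsupp.single 0 l)))
    (hd : ∀ l, φ ((T3 N).d (Finsupp.single 0 l)) = M.d (φ (Finsupp.single 0 l))) : Hom3 φ where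
  e := hX
  a := by
    have hN : ∀ x, (T3 N).a (mX x) = mX ((T3 N).a x) + mX x :=
      LinearMap.congr_fun (T3 N).rel.ae
    have hM : ∀ x, M.a (M.e x) = M.e (M.a x) + M.e x := LinearMap.congr_fun M.rel.ae
    refine poly_ind ha ?_ ?_
    · intro x hx
      rw [hN, map_add, hX, hX, hM, hx]
    · intro x y hx hy
      rw [map_add, map_add, map_add, map_add, hx, hy]
  d := by
    have hN : ∀ x, (T3 N).d (mX x) = mX ((T3 N).d x) - mX x :=
      LinearMap.congr_fun (T3 N).rel.de
    have hM : ∀ x, M.d (M.e x) = M.e (M.d x) - M.e x := LinearMap.congr_fun M.rel.de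
    refine poly_ind hd ?_ ?_
    · intro x hx
      rw [hN, map_sub, hX, hX, hM, hx]
    · intro x y hx hy
      rw [map_add, map_add, map_add, map_add, hx, hy]

lemma hom4_of {N : M3} {M : UM} (φ : (T4 N).carrier →ₗ[ℂ] M.carrier)
    (hX : ∀ x, φ (mX x) = M.f (φ x))
    (ha : ∀ l, φ ((T4 N).a (Finsupp.single 0 l)) = M.a (φ (Finsupp.single 0 l)))
    (hd : ∀ l, φ ((T4 N).d (Finsupp.single 0 l)) = M.d (φ (Finsupp.single 0 l)))
    (he : ∀ l, φ ((T4 N).e (Finsupp.single 0 l)) = M.e (φ (Finsupp.single 0 l))) :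
    IsUHom (N := (T4 N).toUM) φ := by
  have h1 : ∀ x, φ ((T4 N).a x) = M.a (φ x) := by
    have hN : ∀ x, (T4 N).a (mX x) = mX ((T4 N).a x) - mX x :=
      LinearMap.congr_fun (T4 N).rel.af
    have hM : ∀ x, M.a (M.f x) = M.f (M.a x) - M.f x := LinearMap.congr_fun M.rel.af
    refine poly_ind ha ?_ ?_
    · intro x hx
      rw [hN, map_sub, hX, hX, hM, hx]
    · intro x y hx hy
      rw [map_add, map_add, map_add, map_add, hx, hy]
  have h2 : ∀ x, φ ((T4 N).d x) = M.d (φ x) := by
    have hN : ∀ x, (T4 N).d (mX x) = mX ((T4 N).d x) + mX x :=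
      LinearMap.congr_fun (T4 N).rel.df
    have hM : ∀ x, M.d (M.f x) = M.f (M.d x) + M.f x := LinearMap.congr_fun M.rel.df
    refine poly_ind hd ?_ ?_
    · intro x hx
      rw [hN, map_add, hX, hX, hM, hx]
    · intro x y hx hy
      rw [map_add, map_add, map_add, map_add, hx, hy]
  have h3 : ∀ x, φ ((T4 N).e x) = M.e (φ x) := by
    have hN : ∀ x, (T4 N).e (mX x) = mX ((T4 N).e x) + (T4 N).a x - (T4 N).d x :=
      LinearMap.congr_fun (T4 N).rel.ef
    have hM : ∀ x, M.e (M.f x) = M.f (M.e x) + M.a x - M.d x := LinearMap.congr_fun M.rel.ef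
    refine poly_ind he ?_ ?_
    · intro x hx
      rw [hN, map_sub, map_add, hX, hX, hM, hx, h1, h2]
    · intro x y hx hy
      rw [map_add, map_add, map_add, map_add, hx, hy]
  exact ⟨h1, h2, h3, hX⟩

/-! ### values at constants -/

lemma T2_d_zero (N : M1) (l : N.carrier) :
    (T2 N).d (Finsupp.single 0 l) = Finsupp.single 0 (N.d l) := by
  simp [T2]

lemma T3_a_zero (N : M2) (l : N.carrier) :
    (T3 N).a (Finsupp.single 0 l) = Finsupp.single 0 (N.a l) := by
  simp [T3]

lemma T3_d_zero (N : M2) (l : N.carrier) :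
    (T3 N).d (Finsupp.single 0 l) = Finsupp.single 0 (N.d l) := by
  simp [T3]

lemma T4_a_zero (N : M3) (l : N.carrier) :
    (T4 N).a (Finsupp.single 0 l) = Finsupp.single 0 (N.a l) := by
  simp [T4]

lemma T4_d_zero (N : M3) (l : N.carrier) :
    (T4 N).d (Finsupp.single 0 l) = Finsupp.single 0 (N.d l) := by
  simp [T4]

lemma T4_e_zero (N : M3) (l : N.carrier) :
    (T4 N).e (Finsupp.single 0 l) = Finsupp.single 0 (N.e l) :=
  opE_single_zero N l

/-! ### functoriality -/

lemma mp_hom2 {N N' : M1} {φ : N.carrier →ₗ[ℂ] N'.carrier} (h : Hom1 φ) :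
    Hom2 (N := T2 N) (N' := T2 N') (mp φ) := by
  refine hom2_of _ (fun x => mp_mX _ _) fun l => ?_
  rw [T2_d_zero, mp_single, mp_single, T2_d_zero, h.d]

lemma mp_hom3 {N N' : M2} {φ : N.carrier →ₗ[ℂ] N'.carrier} (h : Hom2 φ) :
    Hom3 (N := T3 N) (N' := T3 N') (mp φ) := by
  refine hom3_of _ (fun x => mp_mX _ _) (fun l => ?_) (fun l => ?_)
  · rw [T3_a_zero, mp_single, mp_single, T3_a_zero, h.a]
  · rw [T3_d_zero, mp_single, mp_single, T3_d_zero, h.d]

lemma mp_hom4 {N N' : M3} {φ : N.carrier →ₗ[ℂ] N'.carrier} (h : Hom3 φ) :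
    IsUHom (N := (T4 N).toUM) (N' := (T4 N').toUM) (mp φ) := by
  refine hom4_of _ (fun x => mp_mX _ _) (fun l => ?_) (fun l => ?_) (fun l => ?_)
  · rw [T4_a_zero, mp_single, mp_single, T4_a_zero, h.a]
  · rw [T4_d_zero, mp_single, mp_single, T4_d_zero, h.d]
  · rw [T4_e_zero, mp_single, mp_single, T4_e_zero, h.e]

/-! ### the one-variable sequences -/

/-- restriction from level 4 to level 3, twisted by `c` -/
@[reducible] def res4 (N : FUM) (c : ℂ) : M3 where
  carrier := N.carrier
  a := N.a + (-c) • 1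
  d := N.d + c • 1
  e := N.e
  rel := by
    constructor
    · simp only [add_mul, mul_add, N.rel.ad, smul_mul_assoc, mul_smul_comm, one_mul, mul_one]
      module
    · simp only [add_mul, mul_add, N.rel.ae, smul_mul_assoc, mul_smul_comm, one_mul, mul_one]
      module
    · simp only [add_mul, mul_add, N.rel.de, smul_mul_assoc, mul_smul_comm, one_mul, mul_one]
      module
  fil := N.fil
  mono := N.mono
  fa := add_const_mem N.mono N.fa _
  fd := add_const_mem N.mono N.fd _
  fe := N.fe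

/-- restriction from level 3 to level 2, twisted by `c` -/
@[reducible] def res3 (N : M3) (c : ℂ) : M2 where
  carrier := N.carrier
  a := N.a + c • 1
  d := N.d + (-c) • 1
  ad := by
    simp only [add_mul, mul_add, N.rel.ad, smul_mul_assoc, mul_smul_comm, one_mul, mul_one]
    module
  fil := N.fil
  mono := N.mono
  fa := add_const_mem N.mono N.fa _
  fd := add_const_mem N.mono N.fd _

/-- restriction from level 2 to level 1 -/
@[reducible] def res2 (N : M2) : M1 where
  carrier := N.carrier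
  d := N.d
  fil := N.fil
  mono := N.mono
  fd := N.fd

lemma evl_zero {L : Type} [AddCommGroup L] [Module ℂ L] (φ : L →ₗ[ℂ] L) (l : L) :
    evl φ (Finsupp.single 0 l) = l := by simp

lemma delta_zero {L : Type} [AddCommGroup L] [Module ℂ L] (φ : L →ₗ[ℂ] L) (l : L) :
    delta φ (Finsupp.single 0 l) = Finsupp.single 1 l - Finsupp.single 0 (φ l) := by
  simp [delta_apply]

lemma delta_hom4 (N : FUM) :
    IsUHom (N := (T4 (res4 N 1)).toUM) (N' := (T4 (res4 N 0)).toUM) (delta N.f) := by
  have af : ∀ x, N.a (N.f x) = N.f (N.a x) - N.f x := LinearMap.congr_fun N.rel.af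
  have df : ∀ x, N.d (N.f x) = N.f (N.d x) + N.f x := LinearMap.congr_fun N.rel.df
  have ef : ∀ x, N.e (N.f x) = N.f (N.e x) + N.a x - N.d x := LinearMap.congr_fun N.rel.ef
  refine hom4_of _ (fun x => delta_mX _ _) (fun l => ?_) (fun l => ?_) (fun l => ?_)
  · rw [T4_a_zero, delta_zero, delta_zero]
    change _ = dg (fun j => (N.a + (-(0:ℂ)) • 1) + (-(j : ℂ)) • 1) _
    simp [res4, af, sub_eq_add_neg]
  · rw [T4_d_zero, delta_zero, delta_zero]
    change _ = dg (fun j => (N.d + ((0:ℂ)) • 1) + ((j : ℂ)) • 1) _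
    simp [res4, df]
  · rw [T4_e_zero, delta_zero, delta_zero]
    change _ = opE (res4 N 0) _
    rw [map_sub, opE_single_zero, opE_single_succ]
    simp [res4, ef]
    abel

lemma evl_hom4 (N : FUM) :
    IsUHom (N := (T4 (res4 N 0)).toUM) (N' := N.toUM) (evl N.f) := by
  refine hom4_of _ (fun x => evl_mX _ _) (fun l => ?_) (fun l => ?_) (fun l => ?_)
  · rw [T4_a_zero, evl_zero, evl_zero]
    simp [res4]
  · rw [T4_d_zero, evl_zero, evl_zero]
    simp [res4]
  · rw [T4_e_zero, evl_zero, evl_zero]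

lemma delta_hom3 (N : M3) :
    Hom3 (N := T3 (res3 N 1)) (N' := T3 (res3 N 0)) (delta N.e) := by
  have ae : ∀ x, N.a (N.e x) = N.e (N.a x) + N.e x := LinearMap.congr_fun N.rel.ae
  have de : ∀ x, N.d (N.e x) = N.e (N.d x) - N.e x := LinearMap.congr_fun N.rel.de
  refine hom3_of _ (fun x => delta_mX _ _) (fun l => ?_) (fun l => ?_)
  · rw [T3_a_zero, delta_zero, delta_zero]
    change _ = dg (fun j => (N.a + ((0:ℂ)) • 1) + ((j : ℂ)) • 1) _
    simp [res3, ae]
  · rw [T3_d_zero, delta_zero, delta_zero]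
    change _ = dg (fun j => (N.d + (-(0:ℂ)) • 1) + (-(j : ℂ)) • 1) _
    simp [res3, de, sub_eq_add_neg]

lemma evl_hom3 (N : M3) :
    Hom3 (N := T3 (res3 N 0)) (N' := N) (evl N.e) := by
  refine hom3_of _ (fun x => evl_mX _ _) (fun l => ?_) (fun l => ?_)
  · rw [T3_a_zero, evl_zero, evl_zero]
    simp [res3]
  · rw [T3_d_zero, evl_zero, evl_zero]
    simp [res3]

lemma delta_hom2 (N : M2) :
    Hom2 (N := T2 (res2 N)) (N' := T2 (res2 N)) (delta N.a) := by
  have ad : ∀ x, N.a (N.d x) = N.d (N.a x) := LinearMap.congr_fun N.ad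
  refine hom2_of _ (fun x => delta_mX _ _) (fun l => ?_)
  rw [T2_d_zero, delta_zero, delta_zero]
  change _ = dg (fun j => N.d) _
  simp [res2, ad]

lemma evl_hom2 (N : M2) :
    Hom2 (N := T2 (res2 N)) (N' := N) (evl N.a) := by
  refine hom2_of _ (fun x => evl_mX _ _) (fun l => ?_)
  rw [T2_d_zero, evl_zero, evl_zero]

lemma delta_hom1 (N : M1) :
    Hom1 (N := T1 N.carrier N.fil N.mono) (N' := T1 N.carrier N.fil N.mono) (delta N.d) :=
  ⟨fun x => delta_mX _ _⟩

lemma evl_hom1 (N : M1) :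
    Hom1 (N := T1 N.carrier N.fil N.mono) (N' := N) (evl N.d) :=
  ⟨fun x => evl_mX _ _⟩

/-! ### shifts -/

/-- shift of filtered spaces of level 3 -/
@[reducible] def M3.shift (N : M3) (s : ℤ) : M3 where
  carrier := N.carrier
  a := N.a
  d := N.d
  e := N.e
  rel := N.rel
  fil i := N.fil (i - s)
  mono i := by have := N.mono (i - s); rwa [show i - s + 1 = i + 1 - s by ring] at this
  fa i x hx := by have := N.fa (i - s) x hx; rwa [show i - s + 1 = i + 1 - s by ring] at this
  fd i x hx := by have := N.fd (i - s) x hx; rwa [show i - s + 1 = i + 1 - s by ring] at this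
  fe i x hx := by have := N.fe (i - s) x hx; rwa [show i - s + 1 = i + 1 - s by ring] at this

lemma polyFil_shift {L : Type} [AddCommGroup L] [Module ℂ L] (G : ℤ → Submodule ℂ L) :
    (fun i => polyFil G (i - 1)) = polyFil (fun i => G (i - 1)) := by
  funext i
  ext p
  simp only [mem_polyFil]
  refine forall_congr' fun n => ?_
  rw [show i - 1 - (n : ℤ) = i - n - 1 by ring]

/-- exactness with a shift by one -/
def SX {L' L L'' : Type} [AddCommGroup L'] [Module ℂ L'] [AddCommGroup L] [Module ℂ L]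
    [AddCommGroup L''] [Module ℂ L''] (F' : ℤ → Submodule ℂ L') (F : ℤ → Submodule ℂ L)
    (F'' : ℤ → Submodule ℂ L'') (f : L' →ₗ[ℂ] L) (g : L →ₗ[ℂ] L'') : Prop :=
  FExact (fun i => F' (i - 1)) F F'' f g

lemma SX.mp {L' L L'' : Type} [AddCommGroup L'] [Module ℂ L'] [AddCommGroup L] [Module ℂ L]
    [AddCommGroup L''] [Module ℂ L''] {F' : ℤ → Submodule ℂ L'} {F : ℤ → Submodule ℂ L}
    {F'' : ℤ → Submodule ℂ L''} {f : L' →ₗ[ℂ] L} {g : L →ₗ[ℂ] L''}
    (h : SX F' F F'' f g) :
    SX (polyFil F') (polyFil F) (polyFil F'') (Chain.mp f) (Chain.mp g) := by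
  unfold SX at *
  rw [polyFil_shift]
  exact FExact.mp h

lemma sx_delta {L : Type} [AddCommGroup L] [Module ℂ L] {G : ℤ → Submodule ℂ L} {φ : L →ₗ[ℂ] L}
    (hφ : ∀ i, ∀ l ∈ G i, φ l ∈ G (i + 1)) :
    SX (polyFil G) (polyFil G) G (delta φ) (evl φ) :=
  fexact_delta hφ

/-! ### free modules -/

/-- the free filtered module on `(L, G)`. -/
@[reducible] def Fr (L : Type) [AddCommGroup L] [Module ℂ L] (G : ℤ → Submodule ℂ L)
    (hG : ∀ i, G i ≤ G (i + 1)) : FUM := T4 (T3 (T2 (T1 L G hG)))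

section chain

variable {P : ℕ → FUM → Prop}
  (h0 : ∀ (L : Type) [AddCommGroup L] [Module ℂ L] [Module.Finite ℂ L] [Nontrivial L],
    P 0 (Fr L (trivFil L) trivFil_mono))
  (hs : ∀ (j : ℕ) (N' N N'' : FUM) (f : N'.carrier →ₗ[ℂ] N.carrier)
      (g : N.carrier →ₗ[ℂ] N''.carrier), SES (N'.shift 1) N N'' f g →
      P j N' → P j N → P (j + 1) N'')

include h0 hs

lemma chain1 (L : Type) [AddCommGroup L] [Module ℂ L] [Module.Finite ℂ L] [Nontrivial L]
    (d : Module.End ℂ L) :
    P 1 (T4 (T3 (T2 ⟨L, d, trivFil L, trivFil_mono, fun i x hx => trivFil_map _ i x hx⟩))) := by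
  refine hs 0 (Fr L (trivFil L) trivFil_mono) (Fr L (trivFil L) trivFil_mono) _
    (mp (mp (mp (delta d)))) (mp (mp (mp (evl d)))) ⟨?_, ?_, ?_⟩ (h0 L) (h0 L)
  · exact mp_hom4 (mp_hom3 (mp_hom2
      (delta_hom1 ⟨L, d, trivFil L, trivFil_mono, fun i x hx => trivFil_map _ i x hx⟩)))
  · exact mp_hom4 (mp_hom3 (mp_hom2
      (evl_hom1 ⟨L, d, trivFil L, trivFil_mono, fun i x hx => trivFil_map _ i x hx⟩)))
  · exact SX.mp (SX.mp (SX.mp (sx_delta fun i l hl => trivFil_map _ i l hl)))

lemma chain2 (L : Type) [AddCommGroup L] [Module ℂ L] [Module.Finite ℂ L] [Nontrivial L]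
    (a d : Module.End ℂ L) (ad : a * d = d * a) :
    P 2 (T4 (T3 ⟨L, a, d, ad, trivFil L, trivFil_mono, fun i x hx => trivFil_map _ i x hx,
      fun i x hx => trivFil_map _ i x hx⟩)) := by
  refine hs 1 _ _ _
    (mp (mp (delta a))) (mp (mp (evl a))) ⟨?_, ?_, ?_⟩ (chain1 h0 hs L d) (chain1 h0 hs L d)
  · exact mp_hom4 (mp_hom3
      (delta_hom2 ⟨L, a, d, ad, trivFil L, trivFil_mono, fun i x hx => trivFil_map _ i x hx,
      fun i x hx => trivFil_map _ i x hx⟩))
  · exact mp_hom4 (mp_hom3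
      (evl_hom2 ⟨L, a, d, ad, trivFil L, trivFil_mono, fun i x hx => trivFil_map _ i x hx,
      fun i x hx => trivFil_map _ i x hx⟩))
  · exact SX.mp (SX.mp (sx_delta fun i l hl => trivFil_map _ i l hl))

lemma chain3 (L : Type) [AddCommGroup L] [Module ℂ L] [Module.Finite ℂ L] [Nontrivial L]
    (a d e : Module.End ℂ L) (rel : IsBorel a d e) :
    P 3 (T4 ⟨L, a, d, e, rel, trivFil L, trivFil_mono, fun i x hx => trivFil_map _ i x hx,
      fun i x hx => trivFil_map _ i x hx, fun i x hx => trivFil_map _ i x hx⟩) := by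
  let N : M3 := ⟨L, a, d, e, rel, trivFil L, trivFil_mono, fun i x hx => trivFil_map _ i x hx,
      fun i x hx => trivFil_map _ i x hx, fun i x hx => trivFil_map _ i x hx⟩
  exact hs 2 (T4 (T3 (res3 N 1))) (T4 (T3 (res3 N 0))) (T4 N)
    (mp (delta e)) (mp (evl e)) ⟨mp_hom4 (delta_hom3 N), mp_hom4 (evl_hom3 N),
      SX.mp (sx_delta fun i l hl => trivFil_map _ i l hl)⟩
      (chain2 h0 hs L _ _ (res3 N 1).ad) (chain2 h0 hs L _ _ (res3 N 0).ad)

lemma chain4 (L : UM) [Module.Finite ℂ L.carrier] [Nontrivial L.carrier] :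
    P 4 L.triv := by
  exact hs 3 (T4 (res4 L.triv 1)) (T4 (res4 L.triv 0)) L.triv
    (delta L.f) (evl L.f) ⟨delta_hom4 L.triv, evl_hom4 L.triv,
      sx_delta fun i l hl => trivFil_map _ i l hl⟩
      (@chain3 P h0 hs L.carrier L.acg L.mod ‹_› ‹_› _ _ _ (res4 L.triv 1).rel)
      (@chain3 P h0 hs L.carrier L.acg L.mod ‹_› ‹_› _ _ _ (res4 L.triv 0).rel)

end chain

/-! ### the regular module -/

lemma IsGL2.map {A B : Type} [Ring A] [Ring B] {a d e f : A} (h : IsGL2 a d e f) (φ : A →+* B) :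
    IsGL2 (φ a) (φ d) (φ e) (φ f) where
  ad := by rw [← map_mul, h.ad, map_mul]
  ae := by rw [← map_mul, h.ae, map_add, map_mul]
  de := by rw [← map_mul, h.de, map_sub, map_mul]
  af := by rw [← map_mul, h.af, map_sub, map_mul]
  df := by rw [← map_mul, h.df, map_add, map_mul]
  ef := by rw [← map_mul, h.ef, map_sub, map_add, map_mul]

lemma one_mem_gens : (1 : U) ∈ U.gens := Submodule.subset_span (Or.inl rfl)

lemma g_mem_gens (x : Gen) : U.g x ∈ U.gens := Submodule.subset_span (Or.inr ⟨x, rfl⟩)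

lemma fil_of_nonneg {i : ℤ} (h : 0 ≤ i) : U.fil i = U.gens ^ i.toNat := by
  unfold U.fil; rw [if_pos h]

lemma fil_of_neg {i : ℤ} (h : i < 0) : U.fil i = ⊥ := by
  unfold U.fil; rw [if_neg (by omega)]

lemma fil_mul_gens {u v : U} {i : ℤ} (hu : u ∈ U.gens) (hv : v ∈ U.fil i) :
    u * v ∈ U.fil (i + 1) := by
  by_cases h : 0 ≤ i
  · rw [fil_of_nonneg h] at hv
    rw [fil_of_nonneg (by omega), show (i + 1).toNat = i.toNat + 1 by omega, pow_succ']
    exact Submodule.mul_mem_mul hu hv
  · rw [fil_of_neg (by omega)] at hv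
    rw [(Submodule.mem_bot ℂ).1 hv, mul_zero]
    exact Submodule.zero_mem _

lemma fil_mono (i : ℤ) : U.fil i ≤ U.fil (i + 1) := by
  intro v hv
  have := fil_mul_gens one_mem_gens hv
  rwa [one_mul] at this

lemma one_mem_fil {i : ℤ} (h : 0 ≤ i) : (1 : U) ∈ U.fil i := by
  rw [fil_of_nonneg h]
  have h1 : ∀ n : ℕ, (1 : U) ∈ U.gens ^ n := by
    intro n
    induction n with
    | zero => rw [pow_zero]; exact Submodule.one_le.1 le_rfl
    | succ n ih =>
      rw [pow_succ, ← mul_one (1 : U)]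
      exact Submodule.mul_mem_mul ih one_mem_gens
  exact h1 _

/-- `J → U` as a filtered `U`-module. -/
@[reducible] def reg (J : Type) : FUM where
  carrier := J → U
  a := Algebra.lsmul ℂ ℂ (J → U) (U.g .a)
  d := Algebra.lsmul ℂ ℂ (J → U) (U.g .d)
  e := Algebra.lsmul ℂ ℂ (J → U) (U.g .e)
  f := Algebra.lsmul ℂ ℂ (J → U) (U.g .f)
  rel := IsGL2.map U.isGL2 (Algebra.lsmul ℂ ℂ (J → U)).toRingHom
  fil i := Submodule.pi Set.univ fun _ => U.fil i
  mono i x hx j hj := fil_mono i (hx j hj)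
  fa i x hx j hj := fil_mul_gens (g_mem_gens _) (hx j hj)
  fd i x hx j hj := fil_mul_gens (g_mem_gens _) (hx j hj)
  fe i x hx j hj := fil_mul_gens (g_mem_gens _) (hx j hj)
  ff i x hx j hj := fil_mul_gens (g_mem_gens _) (hx j hj)

lemma reg_ρ {J : Type} (u : U) (x : (reg J).carrier) (j : J) :
    ((reg J).toUM.ρ u x : J → U) j = u * x j := by
  have h : (reg J).toUM.ρ = Algebra.lsmul ℂ ℂ (J → U) := by
    apply U.hom_ext
    intro g
    unfold UM.ρ
    cases g <;> simp
  rw [h]
  rfl

/-! ### universal properties -/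

lemma ext_hom2 {N : M1} {M : M2} (φ : N.carrier →ₗ[ℂ] M.carrier)
    (hd : ∀ x, φ (N.d x) = M.d (φ x)) : Hom2 (N := T2 N) (N' := M) (ext M.a φ) := by
  refine hom2_of _ (fun x => ext_mX _ _ _) fun l => ?_
  rw [T2_d_zero, ext_single, ext_single, pow_zero, Module.End.one_apply, Module.End.one_apply, hd]

lemma ext_hom3 {N : M2} {M : M3} (φ : N.carrier →ₗ[ℂ] M.carrier)
    (ha : ∀ x, φ (N.a x) = M.a (φ x))
    (hd : ∀ x, φ (N.d x) = M.d (φ x)) : Hom3 (N := T3 N) (N' := M) (ext M.e φ) := by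
  refine hom3_of _ (fun x => ext_mX _ _ _) (fun l => ?_) (fun l => ?_)
  · rw [T3_a_zero, ext_single, ext_single, pow_zero, Module.End.one_apply, Module.End.one_apply,
      ha]
  · rw [T3_d_zero, ext_single, ext_single, pow_zero, Module.End.one_apply, Module.End.one_apply,
      hd]

lemma ext_hom4 {N : M3} {M : UM} (φ : N.carrier →ₗ[ℂ] M.carrier)
    (ha : ∀ x, φ (N.a x) = M.a (φ x))
    (hd : ∀ x, φ (N.d x) = M.d (φ x))
    (he : ∀ x, φ (N.e x) = M.e (φ x)) : IsUHom (N := (T4 N).toUM) (N' := M) (ext M.f φ) := by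
  refine hom4_of _ (fun x => ext_mX _ _ _) (fun l => ?_) (fun l => ?_) (fun l => ?_)
  · rw [T4_a_zero, ext_single, ext_single, pow_zero, Module.End.one_apply, Module.End.one_apply,
      ha]
  · rw [T4_d_zero, ext_single, ext_single, pow_zero, Module.End.one_apply, Module.End.one_apply,
      hd]
  · rw [T4_e_zero, ext_single, ext_single, pow_zero, Module.End.one_apply, Module.End.one_apply,
      he]

section free

variable {L : Type} [AddCommGroup L] [Module ℂ L]

/-- the extension of a linear map to the free module -/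
def psi (M : FUM) (g : L →ₗ[ℂ] M.carrier) :
    (Fr L (trivFil L) trivFil_mono).carrier →ₗ[ℂ] M.carrier :=
  ext M.f (ext M.e (ext M.a (ext M.d g)))

/-- level 3 part of a FUM -/
@[reducible] def und3 (M : FUM) : M3 :=
  ⟨M.carrier, M.a, M.d, M.e, ⟨M.rel.ad, M.rel.ae, M.rel.de⟩, M.fil, M.mono, M.fa, M.fd, M.fe⟩

/-- level 2 part of a FUM -/
@[reducible] def und2 (M : FUM) : M2 :=
  ⟨M.carrier, M.a, M.d, M.rel.ad, M.fil, M.mono, M.fa, M.fd⟩

lemma psi_hom (M : FUM) (g : L →ₗ[ℂ] M.carrier) :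
    IsUHom (N := (Fr L (trivFil L) trivFil_mono).toUM) (N' := M.toUM) (psi M g) := by
  have h2 : Hom2 (N := T2 (T1 L (trivFil L) trivFil_mono)) (N' := und2 M)
      (ext M.a (ext M.d g)) := ext_hom2 (M := und2 M) _ fun x => ext_mX _ _ _
  have h3 : Hom3 (N := T3 (T2 (T1 L (trivFil L) trivFil_mono))) (N' := und3 M)
      (ext M.e (ext M.a (ext M.d g))) := ext_hom3 (M := und3 M) _ h2.a h2.d
  exact ext_hom4 _ h3.a h3.d h3.e

lemma psi_mem (M : FUM) (g : L →ₗ[ℂ] M.carrier) (hg : ∀ i x, x ∈ trivFil L i → g x ∈ M.fil i)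
    (i : ℤ) (x : (Fr L (trivFil L) trivFil_mono).carrier)
    (hx : x ∈ (Fr L (trivFil L) trivFil_mono).fil i) : psi M g x ∈ M.fil i := by
  refine ext_mem M.ff (fun i x hx => ext_mem M.fe (fun i x hx => ext_mem M.fa
    (fun i x hx => ext_mem M.fd hg i x hx) i x hx) i x hx) i x hx

/-- constants -/
def cst : L →ₗ[ℂ] (Fr L (trivFil L) trivFil_mono).carrier :=
  Finsupp.lsingle 0 ∘ₗ Finsupp.lsingle 0 ∘ₗ Finsupp.lsingle 0 ∘ₗ Finsupp.lsingle 0

lemma cst_apply (l : L) : (cst l : (Fr L (trivFil L) trivFil_mono).carrier) =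
    Finsupp.single 0 (Finsupp.single 0 (Finsupp.single 0 (Finsupp.single 0 l))) := rfl

lemma psi_cst (M : FUM) (g : L →ₗ[ℂ] M.carrier) (l : L) : psi M g (cst l) = g l := by
  rw [cst_apply, psi]
  simp

lemma cst_mem (l : L) : (cst l) ∈ (Fr L (trivFil L) trivFil_mono).fil 0 := by
  have h : l ∈ trivFil L 0 := by
    unfold trivFil; rw [if_pos le_rfl]; trivial
  refine single_mem_polyFil (single_mem_polyFil (single_mem_polyFil (single_mem_polyFil ?_)))
  simpa using h

lemma free_ind {p : (Fr L (trivFil L) trivFil_mono).carrier → Prop}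
    (h0 : ∀ l, p (cst l)) (hadd : ∀ x y, p x → p y → p (x + y))
    (ha : ∀ x, p x → p ((Fr L (trivFil L) trivFil_mono).a x))
    (hd : ∀ x, p x → p ((Fr L (trivFil L) trivFil_mono).d x))
    (he : ∀ x, p x → p ((Fr L (trivFil L) trivFil_mono).e x))
    (hf : ∀ x, p x → p ((Fr L (trivFil L) trivFil_mono).f x)) (x) : p x := by
  refine poly_ind (fun l => ?_) hf hadd x
  refine poly_ind (p := fun l => p (Finsupp.single 0 l)) (fun l => ?_) ?_ ?_ l
  rotate_left
  · intro x hx
    have := he _ hx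
    rwa [T4_e_zero] at this
  · intro x y hx hy
    rw [Finsupp.single_add]
    exact hadd _ _ hx hy
  refine poly_ind (p := fun l => p (Finsupp.single 0 (Finsupp.single 0 l))) (fun l => ?_) ?_ ?_ l
  rotate_left
  · intro x hx
    have := ha _ hx
    rwa [T4_a_zero, T3_a_zero] at this
  · intro x y hx hy
    rw [Finsupp.single_add, Finsupp.single_add]
    exact hadd _ _ hx hy
  refine poly_ind (p := fun l => p (Finsupp.single 0 (Finsupp.single 0 (Finsupp.single 0 l))))
    (fun l => h0 l) ?_ ?_ l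
  · intro x hx
    have := hd _ hx
    rwa [T4_d_zero, T3_d_zero, T2_d_zero] at this
  · intro x y hx hy
    rw [Finsupp.single_add, Finsupp.single_add, Finsupp.single_add]
    exact hadd _ _ hx hy

end free

/-- criterion for freeness -/
lemma isFilFree_of {L : Type} [AddCommGroup L] [Module ℂ L] (N : FUM) {J : Type} [Fintype J]
    [DecidableEq J] (b : Module.Basis J ℂ L) (c : L →ₗ[ℂ] N.carrier)
    (hc : ∀ l, c l ∈ N.fil 0)
    (hind : ∀ p : N.carrier → Prop, (∀ l, p (c l)) → (∀ x y, p x → p y → p (x + y)) →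
      (∀ x, p x → p (N.a x)) → (∀ x, p x → p (N.d x)) → (∀ x, p x → p (N.e x)) →
      (∀ x, p x → p (N.f x)) → ∀ x, p x)
    (hψ : ∀ (g : L →ₗ[ℂ] (reg J).carrier), (∀ i x, x ∈ trivFil L i → g x ∈ (reg J).fil i) →
      ∃ ψ : N.carrier →ₗ[ℂ] (reg J).carrier, IsUHom (N := N.toUM) (N' := (reg J).toUM) ψ ∧
        (∀ l, ψ (c l) = g l) ∧ ∀ i x, x ∈ N.fil i → ψ x ∈ (reg J).fil i) :
    IsFilFree N (fun j => c (b j)) := by
  let g : L →ₗ[ℂ] (reg J).carrier :=
    { toFun := fun l j => algebraMap ℂ U (b.repr l j)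
      map_add' := fun x y => by ext j; simp
      map_smul' := fun c x => by ext j; simp [Algebra.smul_def] }
  have hg : ∀ i x, x ∈ trivFil L i → g x ∈ (reg J).fil i := by
    intro i x hx
    by_cases h : 0 ≤ i
    · intro j _
      change algebraMap ℂ U (b.repr x j) ∈ U.fil i
      rw [Algebra.algebraMap_eq_smul_one]
      exact Submodule.smul_mem _ _ (one_mem_fil h)
    · unfold trivFil at hx
      rw [if_neg h] at hx
      rw [(Submodule.mem_bot ℂ).1 hx, map_zero]
      exact Submodule.zero_mem _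
  have hgb : ∀ j, g (b j) = Pi.single j 1 := by
    intro j
    ext k
    change algebraMap ℂ U (b.repr (b j) k) = _
    rw [Module.Basis.repr_self, Finsupp.single_apply, Pi.single_apply]
    by_cases h : j = k
    · rw [if_pos h, if_pos h.symm, map_one]
    · rw [if_neg h, if_neg (Ne.symm h), map_zero]
  obtain ⟨ψ, hψ, hψc, hψm⟩ := hψ g hg
  constructor
  · intro j; exact hc (b j)
  · intro u hu j
    have h1 : ψ (∑ j, u j • c (b j)) = u := by
      rw [map_sum]
      have h2 : ∀ j, ψ (u j • c (b j)) = Pi.single j (u j) := by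
        intro j
        rw [hψ.smul, hψc, hgb]
        change (reg J).toUM.ρ (u j) (Pi.single j 1 : J → U) = _
        ext k
        rw [reg_ρ]
        rw [Pi.single_apply, Pi.single_apply]
        split_ifs <;> simp
      rw [Finset.sum_congr rfl fun j _ => h2 j]
      exact Finset.univ_sum_single u
    have h3 : u = 0 := by
      rw [← h1, hu, map_zero]
    rw [h3]; rfl
  · intro i x hx
    refine ⟨ψ x, fun j => hψm i x hx j trivial, ?_⟩
    clear hx
    refine hind (fun x => ∑ j, (ψ x : J → U) j • c (b j) = x)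
      ?_ ?_ ?_ ?_ ?_ ?_ x
    · intro l
      rw [hψc]
      change ∑ j, (algebraMap ℂ U (b.repr l j)) • c (b j) = c l
      conv_rhs => rw [← b.sum_repr l, map_sum]
      refine Finset.sum_congr rfl fun j _ => ?_
      rw [algebraMap_smul, map_smul]
    · intro x y hx hy
      rw [map_add]
      conv_rhs => rw [← hx, ← hy, ← Finset.sum_add_distrib]
      refine Finset.sum_congr rfl fun j _ => ?_
      rw [← add_smul]; rfl
    · intro x hx
      rw [hψ.a]
      conv_rhs => rw [← hx, ← UM.a_smul, Finset.smul_sum]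
      refine Finset.sum_congr rfl fun j _ => ?_
      rw [← mul_smul]; rfl
    · intro x hx
      rw [hψ.d]
      conv_rhs => rw [← hx, ← UM.d_smul, Finset.smul_sum]
      refine Finset.sum_congr rfl fun j _ => ?_
      rw [← mul_smul]; rfl
    · intro x hx
      rw [hψ.e]
      conv_rhs => rw [← hx, ← UM.e_smul, Finset.smul_sum]
      refine Finset.sum_congr rfl fun j _ => ?_
      rw [← mul_smul]; rfl
    · intro x hx
      rw [hψ.f]
      conv_rhs => rw [← hx, ← UM.f_smul, Finset.smul_sum]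
      refine Finset.sum_congr rfl fun j _ => ?_
      rw [← mul_smul]; rfl

lemma isFilFree (L : Type) [AddCommGroup L] [Module ℂ L] {J : Type} [Fintype J] [DecidableEq J]
    (b : Module.Basis J ℂ L) :
    IsFilFree (Fr L (trivFil L) trivFil_mono) (fun j => cst (b j)) :=
  isFilFree_of _ b cst cst_mem (fun p h0 hadd ha hd he hf => free_ind h0 hadd ha hd he hf)
    fun g hg => ⟨psi (reg J) g, psi_hom (reg J) g, psi_cst (reg J) g, psi_mem (reg J) g hg⟩

end Chain

/-- **B3** -/
theorem chain : ChainStmt := by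
  intro P h0 hs L _ _
  refine Chain.chain4 (P := P) ?_ hs L
  intro L _ _ _ _
  have hpos : 0 < Module.finrank ℂ L := Module.finrank_pos
  haveI : Nonempty (Fin (Module.finrank ℂ L)) := ⟨⟨0, hpos⟩⟩
  exact h0 _ (Fin (Module.finrank ℂ L)) _ (Chain.isFilFree L (Module.finBasis ℂ L))

end Crest.Agent.R178B
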