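import Crest.Agent.R178B.OneVar

/-!
Row 178 (S0268), team B: operators and relations for the four one-variable steps

* level 0: vector space `L`;  `T1 L = L[D]`
* level 1: `(L, β)`;          `T2 L = L[A]`
* level 2: `(L, α, β)` commuting; `T3 L = L[E]`
* level 3: `(L, a, d, e)` Borel module; `T4 L = L[F]`
* level 4: `(L, a, d, e, f)` module over `gl_2`.

All operators are plain elements of `Module.End k L`, relations are `BRel`, `URel`.
-/

set_option autoImplicit false

noncomputable section

namespace Crest.Agent.R178B

open Finset

/-- relations of the Borel part of `U(gl_2)` -/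
structure BRel {R : Type*} [Ring R] (a d e : R) : Prop where
  ad : a * d = d * a
  ae : a * e = e * a + e
  de : d * e = e * d - e

/-- relations of `U(gl_2)` -/
structure URel {R : Type*} [Ring R] (a d e f : R) : Prop extends BRel a d e where
  af : a * f = f * a - f
  df : d * f = f * d + f
  ef : e * f = f * e + a - d

section Ops

variable {k L : Type*} [CommRing k] [AddCommGroup L] [Module k L]

/-- `X ^ j l ↦ X ^ j (φ + c j) l` -/
def shiftOp (c : ℤ) (φ : Module.End k L) : Module.End k (ℕ →₀ L) :=
  Finsupp.lsum k fun j => Finsupp.lsingle j ∘ₗ (φ + (c * j) • (1 : Module.End k L))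

@[simp] lemma shiftOp_single (c : ℤ) (φ : Module.End k L) (j : ℕ) (l : L) :
    shiftOp c φ (Finsupp.single j l) = Finsupp.single j (φ l + (c * j) • l) := by
  rw [shiftOp, Finsupp.lsum_single]
  rfl

/-- `X ^ j l ↦ X ^ j (e l) + j X ^ (j - 1) (a - d - (j - 1)) l` -/
def lowerOp (a d e : Module.End k L) : Module.End k (ℕ →₀ L) :=
  Finsupp.lsum k fun j => Finsupp.lsingle j ∘ₗ e +
    (j : ℤ) • (Finsupp.lsingle (j - 1) ∘ₗ (a - d - ((j : ℤ) - 1) • (1 : Module.End k L)))

@[simp] lemma lowerOp_single (a d e : Module.End k L) (j : ℕ) (l : L) :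
    lowerOp a d e (Finsupp.single j l) = Finsupp.single j (e l) +
      (j : ℤ) • Finsupp.single (j - 1) (a l - d l - ((j : ℤ) - 1) • l) := by
  rw [lowerOp, Finsupp.lsum_single]
  rfl

lemma lowerOp_single_zero (a d e : Module.End k L) (l : L) :
    lowerOp a d e (Finsupp.single 0 l) = Finsupp.single 0 (e l) := by
  simp

lemma lowerOp_single_succ (a d e : Module.End k L) (j : ℕ) (l : L) :
    lowerOp a d e (Finsupp.single (j + 1) l) = Finsupp.single (j + 1) (e l) +
      Finsupp.single j (((j : ℤ) + 1) • (a l - d l - (j : ℤ) • l)) := by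
  rw [lowerOp_single, ← Finsupp.smul_single]
  push_cast
  rw [add_sub_cancel_right]

/-! #### level 3 from level 2 -/

theorem bRel_T3 {α β : Module.End k L} (h : α * β = β * α) :
    BRel (shiftOp 1 α) (shiftOp (-1) β) (mulX (k := k) (L := L)) where
  ad := by
    ext j l : 2
    have h1 : α (β l) = β (α l) := LinearMap.congr_fun h l
    simp only [LinearMap.comp_apply, Module.End.mul_apply, Finsupp.lsingle_apply, shiftOp_single,
      map_add, map_zsmul, h1]
    congr 1
    module
  ae := by
    ext j l : 2
    simp only [LinearMap.comp_apply, Module.End.mul_apply, Finsupp.lsingle_apply, shiftOp_single,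
      mulX_single, LinearMap.add_apply, ← Finsupp.single_add]
    congr 1
    push_cast
    module
  de := by
    ext j l : 2
    simp only [LinearMap.comp_apply, Module.End.mul_apply, Finsupp.lsingle_apply, shiftOp_single,
      mulX_single, LinearMap.sub_apply, ← Finsupp.single_sub]
    congr 1
    push_cast
    module

/-! #### level 4 from level 3 -/

theorem uRel_T4 {a d e : Module.End k L} (h : BRel a d e) :
    URel (shiftOp (-1) a) (shiftOp 1 d) (lowerOp a d e) (mulX (k := k) (L := L)) where
  ad := by
    ext j l : 2
    have h1 : a (d l) = d (a l) := LinearMap.congr_fun h.ad l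
    simp only [LinearMap.comp_apply, Module.End.mul_apply, Finsupp.lsingle_apply, shiftOp_single,
      map_add, map_zsmul, h1]
    congr 1
    module
  ae := by
    ext j l : 2
    have h1 : a (d l) = d (a l) := LinearMap.congr_fun h.ad l
    have h2 : a (e l) = e (a l) + e l := LinearMap.congr_fun h.ae l
    simp only [LinearMap.comp_apply, Module.End.mul_apply, Finsupp.lsingle_apply,
      LinearMap.add_apply]
    cases j with
    | zero =>
      simp only [lowerOp_single_zero, shiftOp_single, map_add, map_zsmul, h2,
        ← Finsupp.single_add]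
      congr 1
      simp
    | succ j =>
      simp only [lowerOp_single_succ, shiftOp_single, map_add, map_sub, map_zsmul, h1, h2]
      have e1 : Finsupp.single (j + 1) (e (a l) + e l + (-1 * ((j + 1 : ℕ) : ℤ)) • e l) =
          Finsupp.single (j + 1) (e (a l) + (-1 * ((j + 1 : ℕ) : ℤ)) • e l) +
            Finsupp.single (j + 1) (e l) := by
        rw [← Finsupp.single_add]; congr 1; abel
      rw [e1]
      have e2 : ∀ x y z u v : ℕ →₀ L, y = u + v → x + z + y = x + u + (z + v) := by
        intro x y z u v hy; rw [hy]; abel
      refine e2 _ _ _ _ _ ?_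
      rw [← Finsupp.single_add]
      congr 1
      push_cast
      module
  de := by
    ext j l : 2
    have h1 : a (d l) = d (a l) := LinearMap.congr_fun h.ad l
    have h2 : d (e l) = e (d l) - e l := LinearMap.congr_fun h.de l
    simp only [LinearMap.comp_apply, Module.End.mul_apply, Finsupp.lsingle_apply,
      LinearMap.sub_apply]
    cases j with
    | zero =>
      simp only [lowerOp_single_zero, shiftOp_single, map_add, map_zsmul, h2,
        ← Finsupp.single_sub]
      congr 1
      simp
    | succ j =>
      simp only [lowerOp_single_succ, shiftOp_single, map_add, map_sub, map_zsmul, h1, h2]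
      have e1 : Finsupp.single (j + 1) (e (d l) - e l + (1 * ((j + 1 : ℕ) : ℤ)) • e l) =
          Finsupp.single (j + 1) (e (d l) + (1 * ((j + 1 : ℕ) : ℤ)) • e l) -
            Finsupp.single (j + 1) (e l) := by
        rw [← Finsupp.single_sub]; congr 1; abel
      rw [e1]
      have e2 : ∀ x y z u v : ℕ →₀ L, y = u - v → x - z + y = x + u - (z + v) := by
        intro x y z u v hy; rw [hy]; abel
      refine e2 _ _ _ _ _ ?_
      rw [← Finsupp.single_sub]
      congr 1
      push_cast
      module
  af := by
    ext j l : 2
    simp only [LinearMap.comp_apply, Module.End.mul_apply, Finsupp.lsingle_apply, shiftOp_single,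
      mulX_single, LinearMap.sub_apply, ← Finsupp.single_sub]
    congr 1
    push_cast
    module
  df := by
    ext j l : 2
    simp only [LinearMap.comp_apply, Module.End.mul_apply, Finsupp.lsingle_apply, shiftOp_single,
      mulX_single, LinearMap.add_apply, ← Finsupp.single_add]
    congr 1
    push_cast
    module
  ef := by
    ext j l : 2
    simp only [LinearMap.comp_apply, Module.End.mul_apply, Finsupp.lsingle_apply, shiftOp_single,
      mulX_single, LinearMap.add_apply, LinearMap.sub_apply]
    rw [lowerOp_single_succ]
    cases j with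
    | zero =>
      simp only [lowerOp_single_zero, mulX_single]
      rw [add_sub_assoc, ← Finsupp.single_sub]
      congr 2
      simp
    | succ j =>
      rw [lowerOp_single_succ, map_add, mulX_single, mulX_single]
      have e2 : ∀ x y z u v : ℕ →₀ L, y = z + (u - v) → x + y = x + z + u - v := by
        intro x y z u v hy; rw [hy]; abel
      refine e2 _ _ _ _ _ ?_
      rw [← Finsupp.single_sub, ← Finsupp.single_add]
      congr 1
      push_cast
      module

/-! #### linearity of `delta` and `evl` at level 3 and 4 -/

lemma delta_single (φ : Module.End k L) (j : ℕ) (l : L) :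
    delta φ (Finsupp.single j l) = Finsupp.single (j + 1) l - Finsupp.single j (φ l) := by
  rw [delta_apply, mulX_single, co_single]

lemma delta_mulX (φ : Module.End k L) (p : ℕ →₀ L) :
    delta φ (mulX (k := k) p) = mulX (k := k) (delta φ p) := by
  have : delta φ ∘ₗ mulX = mulX ∘ₗ delta φ := by
    ext j l : 2
    simp [delta_single]
  exact LinearMap.congr_fun this p

lemma evl_mulX (φ : Module.End k L) (p : ℕ →₀ L) :
    evl φ (mulX (k := k) p) = φ (evl φ p) := by
  have : evl φ ∘ₗ mulX = φ ∘ₗ evl φ := by
    ext j l : 2
    simp [pow_succ']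
  exact LinearMap.congr_fun this p

lemma delta_co {α β : Module.End k L} (h : α * β = β * α) (p : ℕ →₀ L) :
    delta α (co β p) = co β (delta α p) := by
  have : delta α ∘ₗ co β = co β ∘ₗ delta α := by
    ext j l : 2
    have h1 : α (β l) = β (α l) := LinearMap.congr_fun h l
    simp [delta_single, h1]
  exact LinearMap.congr_fun this p

lemma evl_co {α β : Module.End k L} (h : α * β = β * α) (p : ℕ →₀ L) :
    evl α (co β p) = β (evl α p) := by
  have : evl α ∘ₗ co β = β ∘ₗ evl α := by
    ext j l : 2
    have h1 : α ^ j * β = β * α ^ j := ((show Commute α β from h).pow_left j).eq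
    have h2 : (α ^ j) (β l) = β ((α ^ j) l) := LinearMap.congr_fun h1 l
    simp [h2]
  exact LinearMap.congr_fun this p

/-- `g` shifts past `φ` by `c` : `g φ = φ (g + c)` -/
lemma delta_shiftOp {g φ : Module.End k L} {c : ℤ} (h : g * φ = φ * g + c • φ) (p : ℕ →₀ L) :
    delta φ (shiftOp c (g + c • 1) p) = shiftOp c g (delta φ p) := by
  have : delta φ ∘ₗ shiftOp c (g + c • 1) = shiftOp c g ∘ₗ delta φ := by
    ext j l : 2
    have h1 : g (φ l) = φ (g l) + c • φ l := LinearMap.congr_fun h l
    simp only [LinearMap.comp_apply, Finsupp.lsingle_apply, shiftOp_single, delta_single,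
      map_sub, h1, LinearMap.add_apply, LinearMap.smul_apply, Module.End.one_apply, map_add,
      map_zsmul]
    congr 2
    push_cast; module
  exact LinearMap.congr_fun this p

lemma pow_shift {g φ : Module.End k L} {c : ℤ} (h : g * φ = φ * g + c • φ) (j : ℕ) (l : L) :
    g ((φ ^ j) l) = (φ ^ j) (g l + (c * j) • l) := by
  induction j generalizing l with
  | zero => simp
  | succ j ih =>
    have h1 : g (φ l) = φ (g l) + c • φ l := LinearMap.congr_fun h l
    rw [pow_succ, Module.End.mul_apply, Module.End.mul_apply, ih, h1]
    congr 1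
    rw [map_add, map_zsmul]
    push_cast
    module

lemma evl_shiftOp {g φ : Module.End k L} {c : ℤ} (h : g * φ = φ * g + c • φ) (p : ℕ →₀ L) :
    evl φ (shiftOp c g p) = g (evl φ p) := by
  have : evl φ ∘ₗ shiftOp c g = g ∘ₗ evl φ := by
    ext j l : 2
    simp only [LinearMap.comp_apply, Finsupp.lsingle_apply, shiftOp_single, evl_single]
    rw [pow_shift h]
  exact LinearMap.congr_fun this p

lemma delta_lowerOp {a d e f : Module.End k L} (h : URel a d e f) (p : ℕ →₀ L) :
    delta f (lowerOp (a + (-1 : ℤ) • 1) (d + (1 : ℤ) • 1) e p) = lowerOp a d e (delta f p) := by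
  have : delta f ∘ₗ lowerOp (a + (-1 : ℤ) • 1) (d + (1 : ℤ) • 1) e = lowerOp a d e ∘ₗ delta f := by
    ext j l : 2
    have h1 : e (f l) = f (e l) + a l - d l := LinearMap.congr_fun h.ef l
    have h2 : a (f l) = f (a l) - f l := LinearMap.congr_fun h.af l
    have h3 : d (f l) = f (d l) + f l := LinearMap.congr_fun h.df l
    simp only [LinearMap.comp_apply, Finsupp.lsingle_apply, delta_single, map_sub]
    cases j with
    | zero =>
      rw [lowerOp_single_zero, lowerOp_single_zero, lowerOp_single_succ, delta_single, h1]
      have e2 : ∀ x y z u : ℕ →₀ L, y = z - u → x - y = x + u - z := by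
        intro x y z u hy; rw [hy]; abel
      refine e2 _ _ _ _ ?_
      rw [← Finsupp.single_sub]
      congr 1
      push_cast
      module
    | succ j =>
      rw [lowerOp_single_succ, lowerOp_single_succ, lowerOp_single_succ, map_add,
        delta_single, delta_single, h1]
      have e2 : ∀ x y z u v w s : ℕ →₀ L, z - y = v - w → u = s →
          x - y + (z - u) = x + v - (w + s) := by
        intro x y z u v w s h1 h2
        have : x - y + (z - u) = x + (z - y) - u := by abel
        rw [this, h1, h2]; abel
      refine e2 _ _ _ _ _ _ _ ?_ ?_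
      · rw [← Finsupp.single_sub, ← Finsupp.single_sub]
        congr 1
        simp only [LinearMap.add_apply, LinearMap.smul_apply, Module.End.one_apply]
        push_cast
        module
      · congr 1
        simp only [LinearMap.add_apply, LinearMap.smul_apply, Module.End.one_apply, map_zsmul,
          map_sub, map_add, h2, h3]
        module
  exact LinearMap.congr_fun this p

lemma pow_lower {a d e f : Module.End k L} (h : URel a d e f) (j : ℕ) (l : L) :
    e ((f ^ (j + 1)) l) = (f ^ (j + 1)) (e l) +
      (f ^ j) (((j : ℤ) + 1) • (a l - d l - (j : ℤ) • l)) := by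
  induction j generalizing l with
  | zero =>
    have h1 : e (f l) = f (e l) + a l - d l := LinearMap.congr_fun h.ef l
    simp [h1]
    abel
  | succ j ih =>
    have h1 : e (f l) = f (e l) + a l - d l := LinearMap.congr_fun h.ef l
    have h2 : a (f l) = f (a l) - f l := LinearMap.congr_fun h.af l
    have h3 : d (f l) = f (d l) + f l := LinearMap.congr_fun h.df l
    have hp : ∀ y, (f ^ j) (f y) = (f ^ (j + 1)) y := fun y => by
      rw [pow_succ f j, Module.End.mul_apply]
    rw [pow_succ f (j + 1), Module.End.mul_apply, ih, h1, h2, h3, Module.End.mul_apply]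
    rw [show (f ^ j) (((j : ℤ) + 1) • (f (a l) - f l - (f (d l) + f l) - (j : ℤ) • f l)) =
      (f ^ j) (f (((j : ℤ) + 1) • (a l - l - (d l + l) - (j : ℤ) • l))) by
        simp only [map_sub, map_add, map_zsmul]]
    rw [hp, add_sub_assoc, ← map_add, ← map_add]
    congr 1
    push_cast
    module

lemma evl_lowerOp {a d e f : Module.End k L} (h : URel a d e f) (p : ℕ →₀ L) :
    evl f (lowerOp a d e p) = e (evl f p) := by
  have : evl f ∘ₗ lowerOp a d e = e ∘ₗ evl f := by
    ext j l : 2
    simp only [LinearMap.comp_apply, Finsupp.lsingle_apply]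
    cases j with
    | zero => simp
    | succ j =>
      rw [lowerOp_single_succ, map_add, evl_single, evl_single, evl_single, pow_lower h]
  exact LinearMap.congr_fun this p

end Ops

end Crest.Agent.R178B
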