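import Mathlib

/-!
Row 178 (S0268): finitistic dimension.  Definitions shared by all the modules of `Crest/Agent/R178B`.
See note 2950 (rid 178) of the team database for the mathematics.
-/

set_option autoImplicit false

open scoped Matrix.Module

noncomputable section

namespace Crest.Agent.R178B

/-! ## The algebra `U = U(gl₂)` -/

/-- Generators `a = E₁₁`, `d = E₂₂`, `e = E₁₂`, `f = E₂₁`. -/
inductive Gen : Type
  | a | d | e | f
  deriving DecidableEq

/-- Commutation relations of `gl₂` for four elements of a ring. -/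
structure IsGL2 {B : Type} [Ring B] (a d e f : B) : Prop where
  ad : a * d = d * a
  ae : a * e = e * a + e
  de : d * e = e * d - e
  af : a * f = f * a - f
  df : d * f = f * d + f
  ef : e * f = f * e + a - d

/-- Relations of the Borel subalgebra. -/
structure IsBorel {B : Type} [Ring B] (a d e : B) : Prop where
  ad : a * d = d * a
  ae : a * e = e * a + e
  de : d * e = e * d - e

local notation "gι" => FreeAlgebra.ι (X := Gen) ℂ

/-- The defining relations of `U`. -/
inductive Rel : FreeAlgebra ℂ Gen → FreeAlgebra ℂ Gen → Prop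
  | ad : Rel (gι Gen.a * gι Gen.d) (gι Gen.d * gι Gen.a)
  | ae : Rel (gι Gen.a * gι Gen.e) (gι Gen.e * gι Gen.a + gι Gen.e)
  | de : Rel (gι Gen.d * gι Gen.e) (gι Gen.e * gι Gen.d - gι Gen.e)
  | af : Rel (gι Gen.a * gι Gen.f) (gι Gen.f * gι Gen.a - gι Gen.f)
  | df : Rel (gι Gen.d * gι Gen.f) (gι Gen.f * gι Gen.d + gι Gen.f)
  | ef : Rel (gι Gen.e * gι Gen.f) (gι Gen.f * gι Gen.e + gι Gen.a - gι Gen.d)

/-- `U = U(gl₂)`. -/
def U : Type := RingQuot Rel

instance : Ring U := inferInstanceAs (Ring (RingQuot Rel))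
instance : Algebra ℂ U := inferInstanceAs (Algebra ℂ (RingQuot Rel))

/-- The quotient map. -/
def U.mk : FreeAlgebra ℂ Gen →ₐ[ℂ] U := RingQuot.mkAlgHom ℂ Rel

/-- The generators of `U`. -/
def U.g (x : Gen) : U := U.mk (FreeAlgebra.ι ℂ x)

lemma U.isGL2 : IsGL2 (U.g .a) (U.g .d) (U.g .e) (U.g .f) := by
  have h : ∀ {x y}, Rel x y → U.mk x = U.mk y := fun h => RingQuot.mkAlgHom_rel ℂ h
  constructor
  · simpa [U.g] using h Rel.ad
  · simpa [U.g] using h Rel.ae
  · simpa [U.g] using h Rel.de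
  · simpa [U.g] using h Rel.af
  · simpa [U.g] using h Rel.df
  · simpa [U.g] using h Rel.ef

/-- choose by generator -/
def Gen.pick {B : Type} (a d e f : B) : Gen → B
  | .a => a
  | .d => d
  | .e => e
  | .f => f

/-- Universal property of `U`. -/
def U.lift {B : Type} [Ring B] [Algebra ℂ B] {a d e f : B} (h : IsGL2 a d e f) : U →ₐ[ℂ] B :=
  RingQuot.liftAlgHom ℂ ⟨FreeAlgebra.lift ℂ (Gen.pick a d e f), by
    intro x y hxy
    cases hxy <;> simp [Gen.pick, h.ad, h.ae, h.de, h.af, h.df, h.ef]⟩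

lemma U.lift_g {B : Type} [Ring B] [Algebra ℂ B] {a d e f : B} (h : IsGL2 a d e f) (x : Gen) :
    U.lift h (U.g x) = Gen.pick a d e f x := by
  unfold U.lift U.g U.mk
  erw [RingQuot.liftAlgHom_mkAlgHom_apply]
  simp

@[simp] lemma U.lift_a {B : Type} [Ring B] [Algebra ℂ B] {a d e f : B} (h : IsGL2 a d e f) :
    U.lift h (U.g .a) = a := U.lift_g h _
@[simp] lemma U.lift_d {B : Type} [Ring B] [Algebra ℂ B] {a d e f : B} (h : IsGL2 a d e f) :
    U.lift h (U.g .d) = d := U.lift_g h _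
@[simp] lemma U.lift_e {B : Type} [Ring B] [Algebra ℂ B] {a d e f : B} (h : IsGL2 a d e f) :
    U.lift h (U.g .e) = e := U.lift_g h _
@[simp] lemma U.lift_f {B : Type} [Ring B] [Algebra ℂ B] {a d e f : B} (h : IsGL2 a d e f) :
    U.lift h (U.g .f) = f := U.lift_g h _

/-- Induction: `U` is generated by the `g x`. -/
lemma U.induction {p : U → Prop} (h1 : ∀ c : ℂ, p (algebraMap ℂ U c)) (hg : ∀ x, p (U.g x))
    (hadd : ∀ u v, p u → p v → p (u + v)) (hmul : ∀ u v, p u → p v → p (u * v)) (u : U) : p u := by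
  obtain ⟨w, rfl⟩ : ∃ w, U.mk w = u := RingQuot.mkAlgHom_surjective ℂ Rel u
  induction w using FreeAlgebra.induction with
  | grade0 c => simpa using h1 c
  | grade1 x => exact hg x
  | mul x y hx hy => simpa using hmul _ _ hx hy
  | add x y hx hy => simpa using hadd _ _ hx hy

/-- Two algebra homs out of `U` agreeing on generators are equal. -/
lemma U.hom_ext {B : Type} [Ring B] [Algebra ℂ B] {φ ψ : U →ₐ[ℂ] B}
    (h : ∀ x, φ (U.g x) = ψ (U.g x)) : φ = ψ := by
  ext u
  refine U.induction (p := fun u => φ u = ψ u) ?_ h ?_ ?_ u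
  · intro c; simp
  · intro u v hu hv; simp [hu, hv]
  · intro u v hu hv; simp [hu, hv]

/-- span of `1, a, d, e, f`. -/
def U.gens : Submodule ℂ U := Submodule.span ℂ ({1} ∪ Set.range U.g)

/-- PBW filtration of `U`, indexed by `ℤ` (zero in negative degrees). -/
def U.fil (i : ℤ) : Submodule ℂ U := if 0 ≤ i then U.gens ^ i.toNat else ⊥

/-! ## U-modules, bundled -/

/-- A `U`-module given by the four operators. -/
structure UM : Type 1 where
  carrier : Type
  [acg : AddCommGroup carrier]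
  [mod : Module ℂ carrier]
  a : Module.End ℂ carrier
  d : Module.End ℂ carrier
  e : Module.End ℂ carrier
  f : Module.End ℂ carrier
  rel : IsGL2 a d e f

attribute [instance] UM.acg UM.mod

instance : CoeSort UM Type := ⟨UM.carrier⟩

/-- The representation. -/
def UM.ρ (N : UM) : U →ₐ[ℂ] Module.End ℂ N.carrier := U.lift N.rel

instance (N : UM) : Module U N.carrier := Module.compHom _ N.ρ.toRingHom

lemma UM.smul_def (N : UM) (u : U) (x : N.carrier) : u • x = N.ρ u x := rfl

instance (N : UM) : IsScalarTower ℂ U N.carrier where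
  smul_assoc c u x := by
    rw [UM.smul_def, UM.smul_def, map_smul]; rfl

@[simp] lemma UM.a_smul (N : UM) (x : N.carrier) : U.g .a • x = N.a x := by
  rw [UM.smul_def, UM.ρ, U.lift_a]
@[simp] lemma UM.d_smul (N : UM) (x : N.carrier) : U.g .d • x = N.d x := by
  rw [UM.smul_def, UM.ρ, U.lift_d]
@[simp] lemma UM.e_smul (N : UM) (x : N.carrier) : U.g .e • x = N.e x := by
  rw [UM.smul_def, UM.ρ, U.lift_e]
@[simp] lemma UM.f_smul (N : UM) (x : N.carrier) : U.g .f • x = N.f x := by
  rw [UM.smul_def, UM.ρ, U.lift_f]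

/-- A linear map commuting with the four operators. -/
structure IsUHom {N N' : UM} (φ : N.carrier →ₗ[ℂ] N'.carrier) : Prop where
  a : ∀ x, φ (N.a x) = N'.a (φ x)
  d : ∀ x, φ (N.d x) = N'.d (φ x)
  e : ∀ x, φ (N.e x) = N'.e (φ x)
  f : ∀ x, φ (N.f x) = N'.f (φ x)

lemma IsUHom.smul {N N' : UM} {φ : N.carrier →ₗ[ℂ] N'.carrier} (h : IsUHom φ) (u : U)
    (x : N.carrier) : φ (u • x) = u • φ x := by
  revert x
  refine U.induction (p := fun u => ∀ x, φ (u • x) = u • φ x) ?_ ?_ ?_ ?_ u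
  · intro c x; rw [algebraMap_smul, algebraMap_smul, map_smul]
  · intro g x; cases g <;> simp [h.a, h.d, h.e, h.f]
  · intro u v hu hv x; rw [add_smul, add_smul, map_add, hu, hv]
  · intro u v hu hv x; rw [mul_smul, mul_smul, hu, hv]

/-- A filtered `U`-module. -/
structure FUM : Type 1 extends UM where
  fil : ℤ → Submodule ℂ carrier
  mono : ∀ i, fil i ≤ fil (i + 1)
  fa : ∀ i x, x ∈ fil i → a x ∈ fil (i + 1)
  fd : ∀ i x, x ∈ fil i → d x ∈ fil (i + 1)
  fe : ∀ i x, x ∈ fil i → e x ∈ fil (i + 1)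
  ff : ∀ i x, x ∈ fil i → f x ∈ fil (i + 1)

end Crest.Agent.R178B
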