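import Crest.Agent.R178B.Fil
import Crest.Agent.R178B.Window
import Crest.Agent.R178B.Simple

/-!
Row 178 (S0268), version B: the `RR`-modules `IndM N`, `GM φ`, `BM N`, their filtrations, exactness
of windows and projectivity of the windows of free filtered modules.
-/

set_option autoImplicit false
set_option linter.all false

open scoped Matrix.Module

noncomputable section

namespace Crest.Agent.R178B

open Matrix

section
variable {N : UM}

/-- `(x • p)_k = x_k • p` -/
def cp (x : Fin 2 → U) (p : N.carrier) : Fin 2 → N.carrier := fun k => x k • p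

@[simp] lemma cp_apply (x : Fin 2 → U) (p : N.carrier) (k : Fin 2) : cp x p k = x k • p := rfl
lemma cp_add (x : Fin 2 → U) (p q : N.carrier) : cp x (p + q) = cp x p + cp x q := by
  ext k; simp
lemma add_cp (x y : Fin 2 → U) (p : N.carrier) : cp (x + y) p = cp x p + cp y p := by
  ext k; simp [add_smul]
@[simp] lemma cp_zero (x : Fin 2 → U) : cp x (0 : N.carrier) = 0 := by ext k; simp
@[simp] lemma zero_cp (p : N.carrier) : cp 0 p = 0 := by ext k; simp
lemma cp_rmul (x : Fin 2 → U) (u : U) (p : N.carrier) : cp (RR.rmul x u) p = cp x (u • p) := by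
  ext k; simp [mul_smul]
lemma cp_mulVec (M : Matrix (Fin 2) (Fin 2) U) (x : Fin 2 → U) (p : N.carrier) :
    cp (M *ᵥ x) p = M • cp x p := by
  funext k
  simp only [cp_apply, Matrix.mulVec, dotProduct, Matrix.Module.smul_apply, Finset.sum_smul,
    mul_smul]

end

/-! ## the module induced from the main block -/

/-- `RR e_m ⊗_U N` -/
def IndM (N : UM) : Type := N.carrier × (Fin 2 → N.carrier) × (Fin 2 → N.carrier)

namespace IndM
variable {N : UM}

instance : AddCommGroup (IndM N) :=
  inferInstanceAs (AddCommGroup (N.carrier × (Fin 2 → N.carrier) × (Fin 2 → N.carrier)))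

/-- constructor -/
def mk (p : N.carrier) (q s : Fin 2 → N.carrier) : IndM N := (p, q, s)
/-- first component -/
def p (v : IndM N) : N.carrier := v.1
/-- second component -/
def q (v : IndM N) : Fin 2 → N.carrier := v.2.1
/-- third component -/
def s (v : IndM N) : Fin 2 → N.carrier := v.2.2

@[ext] lemma ext {v w : IndM N} (h1 : v.p = w.p) (h2 : v.q = w.q) (h3 : v.s = w.s) : v = w :=
  Prod.ext h1 (Prod.ext h2 h3)

@[simp] lemma mk_p (a : N.carrier) (b c : Fin 2 → N.carrier) : (mk a b c).p = a := rfl
@[simp] lemma mk_q (a : N.carrier) (b c : Fin 2 → N.carrier) : (mk a b c).q = b := rfl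
@[simp] lemma mk_s (a : N.carrier) (b c : Fin 2 → N.carrier) : (mk a b c).s = c := rfl
@[simp] lemma zero_p : (0 : IndM N).p = 0 := rfl
@[simp] lemma zero_q : (0 : IndM N).q = 0 := rfl
@[simp] lemma zero_s : (0 : IndM N).s = 0 := rfl
@[simp] lemma add_p (v w : IndM N) : (v + w).p = v.p + w.p := rfl
@[simp] lemma add_q (v w : IndM N) : (v + w).q = v.q + w.q := rfl
@[simp] lemma add_s (v w : IndM N) : (v + w).s = v.s + w.s := rfl
@[simp] lemma neg_p (v : IndM N) : (-v).p = -v.p := rfl
@[simp] lemma neg_q (v : IndM N) : (-v).q = -v.q := rfl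
@[simp] lemma neg_s (v : IndM N) : (-v).s = -v.s := rfl

instance : SMul RR (IndM N) := ⟨fun r v => mk (r.um • v.p) (cp r.x v.p + Δ r.ua • v.q)
  (cp r.y v.p + (θ * Δ r.io) • v.q + Δ r.um • v.s)⟩

@[simp] lemma smul_p (r : RR) (v : IndM N) : (r • v).p = r.um • v.p := rfl
@[simp] lemma smul_q (r : RR) (v : IndM N) : (r • v).q = cp r.x v.p + Δ r.ua • v.q := rfl
@[simp] lemma smul_s (r : RR) (v : IndM N) :
    (r • v).s = cp r.y v.p + (θ * Δ r.io) • v.q + Δ r.um • v.s := rfl

instance : Module RR (IndM N) where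
  one_smul v := by ext1 <;> simp
  smul_zero r := by ext1 <;> simp
  zero_smul v := by ext1 <;> simp
  smul_add r v w := by
    ext1
    · simp
    · simp only [smul_q, add_p, add_q, cp_add, smul_add]; abel
    · simp only [smul_s, add_p, add_q, add_s, cp_add, smul_add]; abel
  add_smul r t v := by
    ext1
    · simp [add_smul]
    · simp only [smul_q, RR.add_x, RR.add_ua, map_add, add_q, add_cp, add_smul]; abel
    · simp only [smul_s, RR.add_y, RR.add_io, RR.add_um, map_add, mul_add, add_s, add_cp,
        add_smul]; abel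
  mul_smul r t v := by
    ext1
    · simp [mul_smul]
    · simp only [smul_q, smul_p, RR.mul_x, RR.mul_ua, map_mul, add_cp, cp_rmul, cp_mulVec,
        smul_add, mul_smul, add_assoc]
    · have key : θ * (Δ r.um * Δ t.io) = Δ r.um * (θ * Δ t.io) := by
        rw [← mul_assoc, θ_comm, mul_assoc]
      have key2 : θ * Δ (r.io * t.ua + r.um * t.io) =
          (θ * Δ r.io) * Δ t.ua + Δ r.um * (θ * Δ t.io) := by
        rw [map_add, map_mul, map_mul, mul_add, key, mul_assoc]
      simp only [smul_s, smul_q, smul_p, RR.mul_y, RR.mul_io, RR.mul_um, key2, map_mul, add_cp,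
        cp_rmul, cp_mulVec, smul_add, add_smul]
      rw [mul_smul (θ * Δ r.io) (Δ t.ua), mul_smul (Δ r.um) (θ * Δ t.io),
        mul_smul (Δ r.um) (Δ t.um)]
      abel

end IndM

/-! ## the modules `G(φ)` -/

/-- `N_a × N_m` with the structure map `φ : N_a → N_m` -/
def GM {Na Nm : UM} {φ : Na.carrier →ₗ[ℂ] Nm.carrier} (hφ : IsUHom φ) : Type :=
  Na.carrier × Nm.carrier

namespace GM
variable {Na Nm : UM} {φ : Na.carrier →ₗ[ℂ] Nm.carrier} {hφ : IsUHom φ}

instance : AddCommGroup (GM hφ) := inferInstanceAs (AddCommGroup (Na.carrier × Nm.carrier))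

/-- constructor -/
def mk (hφ : IsUHom φ) (q : Na.carrier) (s : Nm.carrier) : GM hφ := (q, s)
/-- aux component -/
def q (v : GM hφ) : Na.carrier := v.1
/-- main component -/
def s (v : GM hφ) : Nm.carrier := v.2

@[ext] lemma ext {v w : GM hφ} (h1 : v.q = w.q) (h2 : v.s = w.s) : v = w := Prod.ext h1 h2

@[simp] lemma mk_q (a : Na.carrier) (b : Nm.carrier) : (mk hφ a b).q = a := rfl
@[simp] lemma mk_s (a : Na.carrier) (b : Nm.carrier) : (mk hφ a b).s = b := rfl
@[simp] lemma zero_q : (0 : GM hφ).q = 0 := rfl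
@[simp] lemma zero_s : (0 : GM hφ).s = 0 := rfl
@[simp] lemma add_q (v w : GM hφ) : (v + w).q = v.q + w.q := rfl
@[simp] lemma add_s (v w : GM hφ) : (v + w).s = v.s + w.s := rfl
@[simp] lemma neg_q (v : GM hφ) : (-v).q = -v.q := rfl
@[simp] lemma neg_s (v : GM hφ) : (-v).s = -v.s := rfl

instance : SMul RR (GM hφ) := ⟨fun r v => mk hφ (r.ua • v.q) (r.io • φ v.q + r.um • v.s)⟩

@[simp] lemma smul_q (r : RR) (v : GM hφ) : (r • v).q = r.ua • v.q := rfl
@[simp] lemma smul_s (r : RR) (v : GM hφ) : (r • v).s = r.io • φ v.q + r.um • v.s := rfl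

instance : Module RR (GM hφ) where
  one_smul v := by ext1 <;> simp
  smul_zero r := by ext1 <;> simp
  zero_smul v := by ext1 <;> simp
  smul_add r v w := by
    ext1
    · simp
    · simp only [smul_s, add_q, add_s, map_add, smul_add]; abel
  add_smul r t v := by
    ext1
    · simp [add_smul]
    · simp only [smul_s, RR.add_io, RR.add_um, add_s, add_smul]; abel
  mul_smul r t v := by
    ext1
    · simp [mul_smul]
    · simp only [smul_s, smul_q, RR.mul_io, RR.mul_um, add_smul, mul_smul, smul_add, hφ.smul]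
      abel

end GM

/-! ## modules over the main block -/

/-- `N` with `r` acting through `um` -/
def BM (N : UM) : Type := N.carrier

namespace BM
variable {N : UM}

instance : AddCommGroup (BM N) := inferInstanceAs (AddCommGroup N.carrier)

/-- constructor -/
def mk (v : N.carrier) : BM N := v
/-- underlying element -/
def v (x : BM N) : N.carrier := x

@[ext] lemma ext {x y : BM N} (h : x.v = y.v) : x = y := h
@[simp] lemma mk_v (a : N.carrier) : (mk a).v = a := rfl
@[simp] lemma zero_v : (0 : BM N).v = 0 := rfl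
@[simp] lemma add_v (x y : BM N) : (x + y).v = x.v + y.v := rfl

instance : SMul RR (BM N) := ⟨fun r x => mk (r.um • x.v)⟩
@[simp] lemma smul_v (r : RR) (x : BM N) : (r • x).v = r.um • x.v := rfl

instance : Module RR (BM N) where
  one_smul v := by ext1; simp
  smul_zero r := by ext1; simp
  zero_smul v := by ext1; simp
  smul_add r v w := by ext1; simp
  add_smul r t v := by ext1; simp [add_smul]
  mul_smul r t v := by ext1; simp [mul_smul]

end BM

end Crest.Agent.R178B
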