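import Crest.Agent.R178B.Ind

/-!
Row 178 (S0268), version B: filtered versions of the `RR`-modules `IndM N`, `GM φ`, `BM N`,
exactness of windows and projectivity of the windows of free filtered modules.
-/

set_option autoImplicit false
set_option linter.all false

open scoped Matrix.Module

noncomputable section

namespace Crest.Agent.R178B

open Matrix

/-! ## functoriality -/

lemma map_msmul {N N' : UM} {f : N.carrier →ₗ[ℂ] N'.carrier} (hf : IsUHom f)
    (M : Matrix (Fin 2) (Fin 2) U) (q : Fin 2 → N.carrier) (k : Fin 2) :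
    f ((M • q) k) = (M • (fun k => f (q k))) k := by
  simp only [Matrix.Module.smul_apply, map_sum, hf.smul]

/-- functoriality of `IndM` -/
def IndM.map {N N' : UM} {f : N.carrier →ₗ[ℂ] N'.carrier} (hf : IsUHom f) :
    IndM N →ₗ[RR] IndM N' where
  toFun v := IndM.mk (f v.p) (fun k => f (v.q k)) (fun k => f (v.s k))
  map_add' v w := by
    ext1
    · simp
    · funext k; simp
    · funext k; simp
  map_smul' r v := by
    ext1
    · simp [hf.smul]
    · funext k
      simp only [IndM.mk_q, IndM.smul_q, IndM.mk_p, Pi.add_apply, map_add, map_msmul hf,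
        cp_apply, hf.smul, RingHom.id_apply]
    · funext k
      simp only [IndM.mk_q, IndM.smul_s, IndM.mk_p, IndM.mk_s, Pi.add_apply, map_add,
        map_msmul hf, cp_apply, hf.smul, RingHom.id_apply]

@[simp] lemma IndM.map_p {N N' : UM} {f : N.carrier →ₗ[ℂ] N'.carrier} (hf : IsUHom f)
    (v : IndM N) : (IndM.map hf v).p = f v.p := rfl
@[simp] lemma IndM.map_q {N N' : UM} {f : N.carrier →ₗ[ℂ] N'.carrier} (hf : IsUHom f)
    (v : IndM N) : (IndM.map hf v).q = fun k => f (v.q k) := rfl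
@[simp] lemma IndM.map_s {N N' : UM} {f : N.carrier →ₗ[ℂ] N'.carrier} (hf : IsUHom f)
    (v : IndM N) : (IndM.map hf v).s = fun k => f (v.s k) := rfl

/-- the identity is a `U`-homomorphism -/
lemma isUHom_id (N : UM) : IsUHom (N := N) (N' := N) LinearMap.id :=
  ⟨fun _ => rfl, fun _ => rfl, fun _ => rfl, fun _ => rfl⟩

/-- `RR e_a ⊗_U N` -/
abbrev IndA (N : UM) : Type := GM (isUHom_id N)

/-- functoriality of `IndA` -/
def IndA.map {N N' : UM} {f : N.carrier →ₗ[ℂ] N'.carrier} (hf : IsUHom f) :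
    IndA N →ₗ[RR] IndA N' where
  toFun v := GM.mk _ (f v.q) (f v.s)
  map_add' v w := by
    ext1 <;> simp
  map_smul' r v := by
    ext1
    · simp [hf.smul]
    · simp [hf.smul]

@[simp] lemma IndA.map_q {N N' : UM} {f : N.carrier →ₗ[ℂ] N'.carrier} (hf : IsUHom f)
    (v : IndA N) : (IndA.map hf v).q = f v.q := rfl
@[simp] lemma IndA.map_s {N N' : UM} {f : N.carrier →ₗ[ℂ] N'.carrier} (hf : IsUHom f)
    (v : IndA N) : (IndA.map hf v).s = f v.s := rfl

/-! ## Filtered modules -/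

/-- filtered `IndM` -/
def FIndM (N : FUM) : FM RR.fil where
  X := IndM N.toUM
  G i :=
    { carrier := {v | v.p ∈ N.fil i ∧ (∀ k, v.q k ∈ N.fil i) ∧ (∀ k, v.s k ∈ N.fil (i + 1))}
      add_mem' := by
        rintro v w ⟨h1, h2, h3⟩ ⟨g1, g2, g3⟩
        exact ⟨Submodule.add_mem _ h1 g1, fun k => Submodule.add_mem _ (h2 k) (g2 k),
          fun k => Submodule.add_mem _ (h3 k) (g3 k)⟩
      zero_mem' := ⟨Submodule.zero_mem _, fun _ => Submodule.zero_mem _,
        fun _ => Submodule.zero_mem _⟩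
      neg_mem' := by
        rintro v ⟨h1, h2, h3⟩
        exact ⟨Submodule.neg_mem _ h1, fun k => Submodule.neg_mem _ (h2 k),
          fun k => Submodule.neg_mem _ (h3 k)⟩ }
  smul_mem := by
    rintro i j r v ⟨h1, h2, h3, h4, h5⟩ ⟨g1, g2, g3⟩
    refine ⟨N.smul_mem h1 g1, fun k => ?_, fun k => ?_⟩
    · rw [IndM.smul_q]
      refine Submodule.add_mem _ (N.smul_mem (h4 k) g1) ?_
      rw [Matrix.Module.smul_apply]
      exact Submodule.sum_mem _ fun m _ => N.smul_mem (Δ_mem h2 _ _) (g2 m)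
    · rw [IndM.smul_s]
      refine Submodule.add_mem _ (Submodule.add_mem _ ?_ ?_) ?_
      · have := N.smul_mem (h5 k) g1
        rwa [show i + 1 + j = i + j + 1 by ring] at this
      · rw [Matrix.Module.smul_apply]
        refine Submodule.sum_mem _ fun m _ => ?_
        have := N.smul_mem (θΔ_mem h3 k m) (g2 m)
        rwa [show i + 1 + j = i + j + 1 by ring] at this
      · rw [Matrix.Module.smul_apply]
        refine Submodule.sum_mem _ fun m _ => ?_
        have := N.smul_mem (Δ_mem h1 k m) (g3 m)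
        rwa [← add_assoc] at this

lemma FIndM.mem {N : FUM} {i : ℤ} {v : IndM N.toUM} : v ∈ (FIndM N).G i ↔
    v.p ∈ N.fil i ∧ (∀ k, v.q k ∈ N.fil i) ∧ (∀ k, v.s k ∈ N.fil (i + 1)) := Iff.rfl

/-- filtered `GM` -/
def FGM {Na Nm : FUM} {φ : Na.carrier →ₗ[ℂ] Nm.carrier} (hφ : IsUHom φ)
    (hf : ∀ i, ∀ x ∈ Na.fil i, φ x ∈ Nm.fil i) : FM RR.fil where
  X := GM hφ
  G i :=
    { carrier := {v | v.q ∈ Na.fil i ∧ v.s ∈ Nm.fil i}
      add_mem' := by
        rintro v w ⟨h1, h2⟩ ⟨g1, g2⟩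
        exact ⟨Submodule.add_mem _ h1 g1, Submodule.add_mem _ h2 g2⟩
      zero_mem' := ⟨Submodule.zero_mem _, Submodule.zero_mem _⟩
      neg_mem' := by
        rintro v ⟨h1, h2⟩
        exact ⟨Submodule.neg_mem _ h1, Submodule.neg_mem _ h2⟩ }
  smul_mem := by
    rintro i j r v ⟨h1, h2, h3, h4, h5⟩ ⟨g1, g2⟩
    exact ⟨Na.smul_mem h2 g1, Submodule.add_mem _ (Nm.smul_mem h3 (hf _ _ g1))
      (Nm.smul_mem h1 g2)⟩

lemma FGM.mem {Na Nm : FUM} {φ : Na.carrier →ₗ[ℂ] Nm.carrier} {hφ : IsUHom φ}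
    {hf : ∀ i, ∀ x ∈ Na.fil i, φ x ∈ Nm.fil i} {i : ℤ} {v : GM hφ} :
    v ∈ (FGM hφ hf).G i ↔ v.q ∈ Na.fil i ∧ v.s ∈ Nm.fil i := Iff.rfl

/-- filtered `IndA` -/
abbrev FIndA (N : FUM) : FM RR.fil := FGM (isUHom_id N.toUM) (Na := N) (Nm := N) (fun _ _ h => h)

/-- filtered `BM` -/
def FBM (N : FUM) : FM RR.fil where
  X := BM N.toUM
  G i :=
    { carrier := {v | v.v ∈ N.fil i}
      add_mem' := by
        intro v w h g
        exact Submodule.add_mem _ h g
      zero_mem' := Submodule.zero_mem (N.fil i)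
      neg_mem' := by
        intro v h
        exact Submodule.neg_mem (N.fil i) h }
  smul_mem := by
    rintro i j r v ⟨h1, h2, h3, h4, h5⟩ g1
    exact N.smul_mem h1 g1

lemma FBM.mem {N : FUM} {i : ℤ} {v : BM N.toUM} : v ∈ (FBM N).G i ↔ v.v ∈ N.fil i := Iff.rfl

/-! ## exactness -/

/-- Windows of `IndM` of a filtered short exact sequence. -/
theorem indM_exact {N' N N'' : FUM} {f : N'.carrier →ₗ[ℂ] N.carrier}
    {g : N.carrier →ₗ[ℂ] N''.carrier} (h : SES N' N N'' f g) :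
    ∃ (F : (FIndM N').Win →ₗ[WAR] (FIndM N).Win) (G : (FIndM N).Win →ₗ[WAR] (FIndM N'').Win),
      Function.Injective F ∧ Function.Exact F G ∧ Function.Surjective G := by
  have hf : ∀ i, ∀ x ∈ (FIndM N').G i, (IndM.map h.hf : (FIndM N').X →ₗ[RR] (FIndM N).X) x ∈
      (FIndM N).G i := by
    rintro i x ⟨h1, h2, h3⟩
    exact ⟨h.ex.mapf _ _ h1, fun k => h.ex.mapf _ _ (h2 k), fun k => h.ex.mapf _ _ (h3 k)⟩
  have hg : ∀ i, ∀ x ∈ (FIndM N).G i, (IndM.map h.hg : (FIndM N).X →ₗ[RR] (FIndM N'').X) x ∈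
      (FIndM N'').G i := by
    rintro i x ⟨h1, h2, h3⟩
    exact ⟨h.ex.mapg _ _ h1, fun k => h.ex.mapg _ _ (h2 k), fun k => h.ex.mapg _ _ (h3 k)⟩
  refine ⟨FM.winMap RR.ringFil _ hf, FM.winMap RR.ringFil _ hg, ?_, ?_, ?_⟩
  · refine FM.winMap_injective ?_
    intro x hx
    have hx' : IndM.map h.hf x = 0 := hx
    have hinj := (injective_iff_map_eq_zero f).1 h.ex.inj
    refine IndM.ext ?_ ?_ ?_
    · exact hinj _ (congrArg IndM.p hx')
    · funext k; exact hinj _ (congrFun (congrArg IndM.q hx') k)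
    · funext k; exact hinj _ (congrFun (congrArg IndM.s hx') k)
  · refine FM.winMap_exact ?_ ?_
    · intro x
      refine IndM.ext ?_ ?_ ?_
      · exact h.ex.comp _
      · funext k; exact h.ex.comp _
      · funext k; exact h.ex.comp _
    · rintro i z ⟨h1, h2, h3⟩ hz
      have hz' : IndM.map h.hg z = 0 := hz
      obtain ⟨p, hp, hp'⟩ := h.ex.lift _ _ h1 (congrArg IndM.p hz')
      choose q hq hq' using fun k => h.ex.lift _ _ (h2 k) (congrFun (congrArg IndM.q hz') k)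
      choose s hs hs' using fun k => h.ex.lift _ _ (h3 k) (congrFun (congrArg IndM.s hz') k)
      refine ⟨IndM.mk p q s, ⟨hp, hq, hs⟩, ?_⟩
      exact IndM.ext hp' (funext hq') (funext hs')
  · refine FM.winMap_surjective ?_
    rintro i z ⟨h1, h2, h3⟩
    obtain ⟨p, hp, hp'⟩ := h.ex.surj _ _ h1
    choose q hq hq' using fun k => h.ex.surj _ _ (h2 k)
    choose s hs hs' using fun k => h.ex.surj _ _ (h3 k)
    refine ⟨IndM.mk p q s, ⟨hp, hq, hs⟩, ?_⟩
    exact IndM.ext hp' (funext hq') (funext hs')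

/-- Windows of `IndA` of a filtered short exact sequence. -/
theorem indA_exact {N' N N'' : FUM} {f : N'.carrier →ₗ[ℂ] N.carrier}
    {g : N.carrier →ₗ[ℂ] N''.carrier} (h : SES N' N N'' f g) :
    ∃ (F : (FIndA N').Win →ₗ[WAR] (FIndA N).Win) (G : (FIndA N).Win →ₗ[WAR] (FIndA N'').Win),
      Function.Injective F ∧ Function.Exact F G ∧ Function.Surjective G := by
  have hf : ∀ i, ∀ x ∈ (FIndA N').G i, (IndA.map h.hf : (FIndA N').X →ₗ[RR] (FIndA N).X) x ∈
      (FIndA N).G i := by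
    rintro i x ⟨h1, h2⟩
    exact ⟨h.ex.mapf _ _ h1, h.ex.mapf _ _ h2⟩
  have hg : ∀ i, ∀ x ∈ (FIndA N).G i, (IndA.map h.hg : (FIndA N).X →ₗ[RR] (FIndA N'').X) x ∈
      (FIndA N'').G i := by
    rintro i x ⟨h1, h2⟩
    exact ⟨h.ex.mapg _ _ h1, h.ex.mapg _ _ h2⟩
  refine ⟨FM.winMap RR.ringFil _ hf, FM.winMap RR.ringFil _ hg, ?_, ?_, ?_⟩
  · refine FM.winMap_injective ?_
    intro x hx
    have hx' : IndA.map h.hf x = 0 := hx
    have hinj := (injective_iff_map_eq_zero f).1 h.ex.inj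
    refine GM.ext (hφ := isUHom_id N'.toUM) ?_ ?_
    · exact hinj _ (congrArg GM.q hx')
    · exact hinj _ (congrArg GM.s hx')
  · refine FM.winMap_exact ?_ ?_
    · intro x
      refine GM.ext (hφ := isUHom_id N''.toUM) ?_ ?_
      · exact h.ex.comp _
      · exact h.ex.comp _
    · rintro i z ⟨h1, h2⟩ hz
      have hz' : IndA.map h.hg z = 0 := hz
      obtain ⟨q, hq, hq'⟩ := h.ex.lift _ _ h1 (congrArg GM.q hz')
      obtain ⟨s, hs, hs'⟩ := h.ex.lift _ _ h2 (congrArg GM.s hz')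
      refine ⟨GM.mk (isUHom_id _) q s, ⟨hq, hs⟩, ?_⟩
      exact GM.ext (hφ := isUHom_id N.toUM) hq' hs'
  · refine FM.winMap_surjective ?_
    rintro i z ⟨h1, h2⟩
    obtain ⟨q, hq, hq'⟩ := h.ex.surj _ _ h1
    obtain ⟨s, hs, hs'⟩ := h.ex.surj _ _ h2
    refine ⟨GM.mk (isUHom_id _) q s, ⟨hq, hs⟩, ?_⟩
    exact GM.ext (hφ := isUHom_id N''.toUM) hq' hs'

/-! ## Free filtered modules -/

lemma mul_εm_iff {r : RR} : r * RR.εm = r ↔ r.ua = 0 ∧ r.io = 0 := by
  rw [RR.mul_εm]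
  constructor
  · intro h
    exact ⟨(congrArg RR.ua h).symm, (congrArg RR.io h).symm⟩
  · rintro ⟨h1, h2⟩
    exact RR.ext rfl h1.symm h2.symm rfl rfl

lemma mul_εa_iff {r : RR} : r * RR.εa = r ↔ r.um = 0 ∧ r.x = 0 ∧ r.y = 0 := by
  rw [RR.mul_εa]
  constructor
  · intro h
    exact ⟨(congrArg RR.um h).symm, (congrArg RR.x h).symm, (congrArg RR.y h).symm⟩
  · rintro ⟨h1, h2, h3⟩
    exact RR.ext h1.symm rfl rfl h2.symm h3.symm

/-- evaluation `RR ε → X`, `r ↦ r • x`, on powers -/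
def evalPow (hF : RingFil RR.fil) {ε : RR} (s : ℤ) {J : Type} [Fintype J] {X : Type}
    [AddCommGroup X] [Module RR X] (x : J → X) :
    ((colFM hF ε s).pow J).X →ₗ[RR] X where
  toFun r := ∑ j, colVal (r j) • x j
  map_add' r t := by
    rw [← Finset.sum_add_distrib]
    refine Finset.sum_congr rfl fun j _ => ?_
    rw [← add_smul, ← map_add]; rfl
  map_smul' c r := by
    rw [RingHom.id_apply, Finset.smul_sum]
    refine Finset.sum_congr rfl fun j _ => ?_
    rw [← mul_smul, ← smul_eq_mul, ← map_smul]; rfl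

lemma evalPow_apply (hF : RingFil RR.fil) {ε : RR} (s : ℤ) {J : Type} [Fintype J] {X : Type}
    [AddCommGroup X] [Module RR X] (x : J → X) (r : ((colFM hF ε s).pow J).X) :
    evalPow hF s x r = ∑ j, colVal (r j) • x j := rfl

section sums
variable {N : UM} {J : Type} [Fintype J]

lemma IndM.sum_p (w : J → IndM N) : (∑ j, w j).p = ∑ j, (w j).p :=
  map_sum (⟨⟨IndM.p, rfl⟩, fun _ _ => rfl⟩ : IndM N →+ N.carrier) w _
lemma IndM.sum_q (w : J → IndM N) : (∑ j, w j).q = ∑ j, (w j).q :=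
  map_sum (⟨⟨IndM.q, rfl⟩, fun _ _ => rfl⟩ : IndM N →+ (Fin 2 → N.carrier)) w _
lemma IndM.sum_s (w : J → IndM N) : (∑ j, w j).s = ∑ j, (w j).s :=
  map_sum (⟨⟨IndM.s, rfl⟩, fun _ _ => rfl⟩ : IndM N →+ (Fin 2 → N.carrier)) w _
lemma IndA.sum_q (w : J → IndA N) : (∑ j, w j).q = ∑ j, (w j).q :=
  map_sum (⟨⟨GM.q, rfl⟩, fun _ _ => rfl⟩ : IndA N →+ N.carrier) w _
lemma IndA.sum_s (w : J → IndA N) : (∑ j, w j).s = ∑ j, (w j).s :=
  map_sum (⟨⟨GM.s, rfl⟩, fun _ _ => rfl⟩ : IndA N →+ N.carrier) w _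
end sums

/-- The window of `IndM` of a free filtered module is a power of the window of `RR RR.εm(-s)`. -/
theorem indM_free {N : FUM} {J : Type} [Fintype J] {n : J → N.carrier} (h : IsFilFree N n)
    (s : ℤ) : Nonempty (((colFM RR.ringFil RR.εm s).pow J).Win ≃ₗ[WAR] (FIndM (N.shift s)).Win) := by
  let w : J → IndM N.toUM := fun j => IndM.mk (n j) 0 0
  let Ψ : ((colFM RR.ringFil RR.εm s).pow J).X →ₗ[RR] (FIndM (N.shift s)).X :=
    evalPow RR.ringFil s (X := IndM N.toUM) w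
  have hΨ : ∀ r, Ψ r = IndM.mk (∑ j, (colVal (r j) : RR).um • n j)
      (fun k => ∑ j, (colVal (r j) : RR).x k • n j)
      (fun k => ∑ j, (colVal (r j) : RR).y k • n j) := by
    intro r
    change (∑ j, (colVal (r j) : RR) • w j : IndM N.toUM) = _
    refine IndM.ext ?_ ?_ ?_
    · rw [IndM.sum_p]; rfl
    · rw [IndM.sum_q]; funext k; simp [w]
    · rw [IndM.sum_s]; funext k; simp [w]
  have hmap : ∀ i, ∀ r ∈ ((colFM RR.ringFil RR.εm s).pow J).G i, Ψ r ∈ (FIndM (N.shift s)).G i := by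
    intro i r hr
    rw [hΨ]
    have hr' : ∀ j, (colVal (r j) : RR) ∈ RR.fil (i - s) := hr
    refine ⟨?_, fun k => ?_, fun k => ?_⟩
    · change _ ∈ N.fil (i - s)
      refine Submodule.sum_mem _ fun j _ => ?_
      have := N.smul_mem (hr' j).1 (h.mem j)
      rwa [add_zero] at this
    · change _ ∈ N.fil (i - s)
      refine Submodule.sum_mem _ fun j _ => ?_
      have := N.smul_mem ((hr' j).2.2.2.1 k) (h.mem j)
      rwa [add_zero] at this
    · change _ ∈ N.fil (i + 1 - s)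
      refine Submodule.sum_mem _ fun j _ => ?_
      have := N.smul_mem ((hr' j).2.2.2.2 k) (h.mem j)
      rwa [add_zero, show i - s + 1 = i + 1 - s by ring] at this
  refine ⟨LinearEquiv.ofBijective (FM.winMap RR.ringFil Ψ hmap) ⟨?_, ?_⟩⟩
  · refine FM.winMap_injective ?_
    intro r hr
    rw [hΨ] at hr
    have hr : IndM.mk (∑ j, (colVal (r j) : RR).um • n j)
      (fun k => ∑ j, (colVal (r j) : RR).x k • n j)
      (fun k => ∑ j, (colVal (r j) : RR).y k • n j) = (0 : IndM N.toUM) := hr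
    have h1 := h.inj _ (congrArg IndM.p hr)
    have h2 := fun k => h.inj _ (congrFun (congrArg IndM.q hr) k)
    have h3 := fun k => h.inj _ (congrFun (congrArg IndM.s hr) k)
    funext j
    apply colVal_injective
    obtain ⟨e1, e2⟩ := mul_εm_iff.1 (colVal_mul (r j))
    refine RR.ext (h1 j) e1 e2 ?_ ?_
    · funext k; exact h2 k j
    · funext k; exact h3 k j
  · refine FM.winMap_surjective ?_
    rintro i z ⟨h1, h2, h3⟩
    have h1' : IndM.p (z : IndM N.toUM) ∈ N.fil (i - s) := h1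
    have h2' : ∀ k, IndM.q (z : IndM N.toUM) k ∈ N.fil (i - s) := h2
    have h3' : ∀ k, IndM.s (z : IndM N.toUM) k ∈ N.fil (i + 1 - s) := h3
    obtain ⟨a, ha, ha'⟩ := h.surj _ _ h1'
    choose b hb hb' using fun k => h.surj _ _ (h2' k)
    choose c hc hc' using fun k => h.surj _ _ (h3' k)
    refine ⟨fun j => colMk RR.ringFil s (RR.mk (a j) 0 0 (fun k => b k j) (fun k => c k j))
      (mul_εm_iff.2 ⟨rfl, rfl⟩), ?_, ?_⟩
    · intro j
      change RR.mk (a j) 0 0 (fun k => b k j) (fun k => c k j) ∈ RR.fil (i - s)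
      refine ⟨ha j, Submodule.zero_mem _, Submodule.zero_mem _, fun k => hb k j, fun k => ?_⟩
      have := hc k j
      rwa [show i + 1 - s = i - s + 1 by ring] at this
    · rw [hΨ]
      exact IndM.ext ha' (funext hb') (funext hc')

/-- The window of `IndA` of a free filtered module is a power of the window of `RR RR.εa(-s)`. -/
theorem indA_free {N : FUM} {J : Type} [Fintype J] {n : J → N.carrier} (h : IsFilFree N n)
    (s : ℤ) : Nonempty (((colFM RR.ringFil RR.εa s).pow J).Win ≃ₗ[WAR] (FIndA (N.shift s)).Win) := by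
  let w : J → IndA N.toUM := fun j => GM.mk _ (n j) 0
  let Ψ : ((colFM RR.ringFil RR.εa s).pow J).X →ₗ[RR] (FIndA (N.shift s)).X :=
    evalPow RR.ringFil s (X := IndA N.toUM) w
  have hΨ : ∀ r, Ψ r = GM.mk (isUHom_id N.toUM) (∑ j, (colVal (r j) : RR).ua • n j)
      (∑ j, (colVal (r j) : RR).io • n j) := by
    intro r
    change (∑ j, (colVal (r j) : RR) • w j : IndA N.toUM) = _
    refine GM.ext ?_ ?_
    · rw [IndA.sum_q]; rfl
    · rw [IndA.sum_s]; simp [w]
  have hmap : ∀ i, ∀ r ∈ ((colFM RR.ringFil RR.εa s).pow J).G i, Ψ r ∈ (FIndA (N.shift s)).G i := by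
    intro i r hr
    rw [hΨ]
    have hr' : ∀ j, (colVal (r j) : RR) ∈ RR.fil (i - s) := hr
    refine ⟨?_, ?_⟩
    · change _ ∈ N.fil (i - s)
      refine Submodule.sum_mem _ fun j _ => ?_
      have := N.smul_mem (hr' j).2.1 (h.mem j)
      rwa [add_zero] at this
    · change _ ∈ N.fil (i - s)
      refine Submodule.sum_mem _ fun j _ => ?_
      have := N.smul_mem (hr' j).2.2.1 (h.mem j)
      rwa [add_zero] at this
  refine ⟨LinearEquiv.ofBijective (FM.winMap RR.ringFil Ψ hmap) ⟨?_, ?_⟩⟩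
  · refine FM.winMap_injective ?_
    intro r hr
    rw [hΨ] at hr
    have hr : GM.mk (isUHom_id N.toUM) (∑ j, (colVal (r j) : RR).ua • n j)
      (∑ j, (colVal (r j) : RR).io • n j) = (0 : IndA N.toUM) := hr
    have h1 := h.inj _ (congrArg GM.q hr)
    have h2 := h.inj _ (congrArg GM.s hr)
    funext j
    apply colVal_injective
    obtain ⟨e1, e2, e3⟩ := mul_εa_iff.1 (colVal_mul (r j))
    exact RR.ext e1 (h1 j) (h2 j) e2 e3
  · refine FM.winMap_surjective ?_
    rintro i z ⟨h1, h2⟩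
    have h1' : GM.q (z : IndA N.toUM) ∈ N.fil (i - s) := h1
    have h2' : GM.s (z : IndA N.toUM) ∈ N.fil (i - s) := h2
    obtain ⟨a, ha, ha'⟩ := h.surj _ _ h1'
    obtain ⟨b, hb, hb'⟩ := h.surj _ _ h2'
    refine ⟨fun j => colMk RR.ringFil s (RR.mk 0 (a j) (b j) 0 0) (mul_εa_iff.2 ⟨rfl, rfl, rfl⟩), ?_, ?_⟩
    · intro j
      change RR.mk 0 (a j) (b j) 0 0 ∈ RR.fil (i - s)
      exact ⟨Submodule.zero_mem _, ha j, hb j, fun _ => Submodule.zero_mem _,
        fun _ => Submodule.zero_mem _⟩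
    · rw [hΨ]
      exact GM.ext ha' hb'

/-- (free) in the shape used by the assembly, main block -/
theorem indM_free' {N : FUM} {J : Type} [Fintype J] {n : J → N.carrier} (h : IsFilFree N n)
    (s : Fin 5) : Nonempty ((FIndM (N.shift (vi s))).Win ≃ₗ[WAR]
      (J → (colFM RR.ringFil RR.εm (vi s)).Win)) := by
  obtain ⟨e⟩ := indM_free h (vi s)
  exact ⟨e.symm.trans (FM.winPow RR.ringFil _ J)⟩

/-- (free) in the shape used by the assembly, aux block -/
theorem indA_free' {N : FUM} {J : Type} [Fintype J] {n : J → N.carrier} (h : IsFilFree N n)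
    (s : Fin 5) : Nonempty ((FIndA (N.shift (vi s))).Win ≃ₗ[WAR]
      (J → (colFM RR.ringFil RR.εa (vi s)).Win)) := by
  obtain ⟨e⟩ := indA_free h (vi s)
  exact ⟨e.symm.trans (FM.winPow RR.ringFil _ J)⟩

end Crest.Agent.R178B
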