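import Crest.Agent.R178B.Ind2

/-!
Row 178 (S0268), version B: the constant windows `BM N`, `GM θ` and the two exact sequences.
-/

set_option autoImplicit false
set_option linter.all false

open scoped Matrix.Module

noncomputable section

namespace Crest.Agent.R178B

open Matrix

/-! ## windows only see degrees `0..4` -/

section
variable {Y Z W : FM RR.fil}

/-- maps on windows -/
def winMap5 (f : Y.X →ₗ[RR] Z.X) (hf : ∀ i : Fin 5, ∀ x ∈ Y.G (vi i), f x ∈ Z.G (vi i)) :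
    Y.Win →ₗ[WAR] Z.Win where
  toFun v := Z.mkWin (fun i => f (v.c i)) (fun i => hf _ _ (v.mem i))
  map_add' v w := by
    ext i
    simp
  map_smul' M v := by
    ext i
    change f ((M • v).c i) = ∑ j, M.1 i j • f (v.c j)
    rw [FM.Win.smul_c, map_sum]
    simp

lemma winMap5_injective {f : Y.X →ₗ[RR] Z.X}
    {hf : ∀ i : Fin 5, ∀ x ∈ Y.G (vi i), f x ∈ Z.G (vi i)} (h : ∀ x, f x = 0 → x = 0) :
    Function.Injective (winMap5 f hf) := by
  rw [injective_iff_map_eq_zero]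
  intro v hv
  ext i
  exact h _ (congrArg (fun w : Z.Win => w.c i) hv)

lemma winMap5_surjective {f : Y.X →ₗ[RR] Z.X}
    {hf : ∀ i : Fin 5, ∀ x ∈ Y.G (vi i), f x ∈ Z.G (vi i)}
    (h : ∀ i : Fin 5, ∀ z ∈ Z.G (vi i), ∃ y ∈ Y.G (vi i), f y = z) :
    Function.Surjective (winMap5 f hf) := by
  intro w
  choose y hy hy' using fun i => h _ _ (w.mem i)
  refine ⟨Y.mkWin y hy, ?_⟩
  ext i
  exact hy' i

lemma winMap5_exact {f : Y.X →ₗ[RR] Z.X} {g : Z.X →ₗ[RR] W.X}
    {hf : ∀ i : Fin 5, ∀ x ∈ Y.G (vi i), f x ∈ Z.G (vi i)}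
    {hg : ∀ i : Fin 5, ∀ x ∈ Z.G (vi i), g x ∈ W.G (vi i)}
    (h0 : ∀ x, g (f x) = 0)
    (h : ∀ i : Fin 5, ∀ z ∈ Z.G (vi i), g z = 0 → ∃ y ∈ Y.G (vi i), f y = z) :
    Function.Exact (winMap5 f hf) (winMap5 g hg) := by
  intro w
  constructor
  · intro hw
    have hw' : ∀ i, g (w.c i) = 0 := fun i => congrArg (fun w : W.Win => w.c i) hw
    choose y hy hy' using fun i => h _ _ (w.mem i) (hw' i)
    refine ⟨Y.mkWin y hy, ?_⟩
    ext i
    exact hy' i
  · rintro ⟨v, rfl⟩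
    ext i
    exact h0 _

end

/-- constant filtered module -/
def cFM (X : Type) [AddCommGroup X] [Module RR X] : FM RR.fil where
  X := X
  G _ := ⊤
  smul_mem := fun _ _ => trivial

lemma cFM.mem (X : Type) [AddCommGroup X] [Module RR X] (i : ℤ) (x : X) :
    x ∈ (cFM X).G i := trivial

lemma UM.triv_mem (N : UM) (i : Fin 5) (x : N.carrier) : x ∈ N.triv.fil (vi i) := by
  change x ∈ trivFil N.carrier (vi i)
  unfold trivFil
  rw [if_pos (by positivity)]
  trivial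

lemma UM.triv_mem' (N : UM) (i : Fin 5) (x : N.carrier) : x ∈ N.triv.fil (vi i + 1) := by
  change x ∈ trivFil N.carrier (vi i + 1)
  unfold trivFil
  rw [if_pos (by positivity)]
  trivial

/-! ## `θ` on modules -/

/-- underlying pair -/
def UM.un (N : UM) (v : N.tw.carrier) : Fin 2 → N.carrier := v

lemma UM.un_inj (N : UM) {v w : N.tw.carrier} (h : N.un v = N.un w) : v = w := h

@[simp] lemma UM.un_add (N : UM) (v w : N.tw.carrier) : N.un (v + w) = N.un v + N.un w := rfl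

lemma UM.θ_apply (N : UM) (v : N.tw.carrier) :
    N.un (N.θ v) = Crest.Agent.R178B.θ • N.un v := by
  change (mat2 (N.a + 1) N.f N.e (N.d + 1) : Module.End ℂ (Fin 2 → N.carrier)) (N.un v) = _
  funext k
  fin_cases k <;> simp [Crest.Agent.R178B.θ, Matrix.Module.smul_apply, add_smul] <;> abel

lemma UM.tw_smul' (N : UM) (u : U) (v : N.tw.carrier) : N.un (u • v) = Δ u • N.un v :=
  N.tw_smul u v

lemma UM.θ_smul (N : UM) (u : U) (v : N.tw.carrier) : N.θ (u • v) = u • N.θ v := by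
  apply N.un_inj
  rw [UM.θ_apply, UM.tw_smul', UM.tw_smul', UM.θ_apply]
  rw [← mul_smul, ← mul_smul, θ_comm]

lemma UM.θ_hom (N : UM) : IsUHom (N := N.tw) (N' := N.tw) N.θ where
  a x := by rw [← UM.a_smul, ← UM.a_smul]; exact N.θ_smul _ _
  d x := by rw [← UM.d_smul, ← UM.d_smul]; exact N.θ_smul _ _
  e x := by rw [← UM.e_smul, ← UM.e_smul]; exact N.θ_smul _ _
  f x := by rw [← UM.f_smul, ← UM.f_smul]; exact N.θ_smul _ _

/-- `G(θ_N)`, constant filtration -/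
abbrev GT (N : UM) : Type := GM N.θ_hom

/-- `Const G(θ)` -/
def GMc (N : UM) : FM RR.fil := cFM (GT N)
/-- `Const (block m, N)` -/
def BMc (N : UM) : FM RR.fil := cFM (BM N)

/-- `G(θ) → Ind_m N`, `(q, s) ↦ (0, q, s)` -/
def GTtoIndM (N : UM) : GT N →ₗ[RR] IndM N where
  toFun v := IndM.mk 0 (N.un v.q) (N.un v.s)
  map_add' v w := by
    refine IndM.ext ?_ ?_ ?_
    · simp
    · rfl
    · rfl
  map_smul' r v := by
    refine IndM.ext ?_ ?_ ?_
    · simp
    · simp only [IndM.mk_q, GM.smul_q, RingHom.id_apply, IndM.smul_q, IndM.mk_p, cp_zero, zero_add]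
      exact N.tw_smul' _ _
    · simp only [IndM.mk_s, IndM.mk_q, GM.smul_s, RingHom.id_apply, IndM.smul_s, IndM.mk_p,
        cp_zero, zero_add, UM.un_add]
      rw [← N.θ_smul, UM.θ_apply, UM.tw_smul', UM.tw_smul', mul_smul]

/-- `Ind_m N → N` -/
def IndMtoBM (N : UM) : IndM N →ₗ[RR] BM N where
  toFun v := BM.mk v.p
  map_add' v w := rfl
  map_smul' r v := rfl

/-- **First sequence**: `0 → G(θ) → Ind_m N → N → 0`. -/
theorem seq1 (N : UM) :
    ∃ (F : (GMc N).Win →ₗ[WAR] (FIndM N.triv).Win) (G : (FIndM N.triv).Win →ₗ[WAR] (BMc N).Win),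
      Function.Injective F ∧ Function.Exact F G ∧ Function.Surjective G := by
  have hf : ∀ i : Fin 5, ∀ x ∈ (GMc N).G (vi i),
      (GTtoIndM N : (GMc N).X →ₗ[RR] (FIndM N.triv).X) x ∈ (FIndM N.triv).G (vi i) := by
    intro i x _
    exact ⟨N.triv_mem i _, fun k => N.triv_mem i _, fun k => N.triv_mem' i _⟩
  have hg : ∀ i : Fin 5, ∀ x ∈ (FIndM N.triv).G (vi i),
      (IndMtoBM N : (FIndM N.triv).X →ₗ[RR] (BMc N).X) x ∈ (BMc N).G (vi i) := by
    intro i x _
    trivial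
  refine ⟨winMap5 _ hf, winMap5 _ hg, ?_, ?_, ?_⟩
  · refine winMap5_injective ?_
    intro x hx
    have hx' : IndM.mk 0 (GM.q x) (GM.s x) = (0 : IndM N) := hx
    exact GM.ext (hφ := N.θ_hom) (congrArg IndM.q hx') (congrArg IndM.s hx')
  · refine winMap5_exact ?_ ?_
    · intro x; rfl
    · intro i z _ hz
      refine ⟨GM.mk N.θ_hom (IndM.q z) (IndM.s z), trivial, ?_⟩
      have hz' : IndM.p z = 0 := hz
      exact IndM.ext hz'.symm rfl rfl
  · refine winMap5_surjective ?_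
    intro i z _
    refine ⟨IndM.mk (BM.v z) 0 0, ⟨N.triv_mem i _, fun k => N.triv_mem i _,
      fun k => N.triv_mem' i _⟩, rfl⟩

/-- `N' → Ind_a N^tw`, `x ↦ (0, i x)` -/
def BMtoIndA {N' N : UM} {i : N'.carrier →ₗ[ℂ] N.tw.carrier} (hi : IsUHom i) :
    BM N' →ₗ[RR] IndA N.tw where
  toFun v := GM.mk _ 0 (i v.v)
  map_add' v w := by
    ext1 <;> simp
  map_smul' r v := by
    ext1
    · simp
    · simp [hi.smul]

/-- `Ind_a N^tw → G(θ)`, `(q, s) ↦ (q, θ s)` -/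
def IndAtoGT (N : UM) : IndA N.tw →ₗ[RR] GT N where
  toFun v := GM.mk _ v.q (N.θ v.s)
  map_add' v w := by
    ext1 <;> simp
  map_smul' r v := by
    ext1
    · simp
    · simp [N.θ_smul]

/-- `G(θ) → N'`, `(q, s) ↦ p s` -/
def GTtoBM {N' N : UM} {p : N.tw.carrier →ₗ[ℂ] N'.carrier} (hp : IsUHom p)
    (h0 : ∀ x, p (N.θ x) = 0) : GT N →ₗ[RR] BM N' where
  toFun v := BM.mk (p v.s)
  map_add' v w := by
    ext1; simp
  map_smul' r v := by
    ext1
    simp [hp.smul, h0]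

/-- **Second sequence**: `0 → N' → Ind_a (V ⊗ N) → G(θ) → N' → 0`. -/
theorem seq2 (N' N : UM) (i : N'.carrier →ₗ[ℂ] N.tw.carrier) (p : N.tw.carrier →ₗ[ℂ] N'.carrier)
    (hi : IsUHom i) (hp : IsUHom p) (hinj : Function.Injective i) (hex1 : Function.Exact i N.θ)
    (hex2 : Function.Exact N.θ p) (hsurj : Function.Surjective p) :
    ∃ (F : (BMc N').Win →ₗ[WAR] (FIndA N.tw.triv).Win)
      (G : (FIndA N.tw.triv).Win →ₗ[WAR] (GMc N).Win)
      (H : (GMc N).Win →ₗ[WAR] (BMc N').Win),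
      Function.Injective F ∧ Function.Exact F G ∧ Function.Exact G H ∧ Function.Surjective H := by
  have h0 : ∀ x, p (N.θ x) = 0 := fun x => (hex2 _).2 ⟨x, rfl⟩
  have hf : ∀ j : Fin 5, ∀ x ∈ (BMc N').G (vi j),
      (BMtoIndA hi : (BMc N').X →ₗ[RR] (FIndA N.tw.triv).X) x ∈ (FIndA N.tw.triv).G (vi j) := by
    intro j x _
    exact ⟨N.tw.triv_mem j _, N.tw.triv_mem j _⟩
  have hg : ∀ j : Fin 5, ∀ x ∈ (FIndA N.tw.triv).G (vi j),
      (IndAtoGT N : (FIndA N.tw.triv).X →ₗ[RR] (GMc N).X) x ∈ (GMc N).G (vi j) :=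
    fun _ _ _ => trivial
  have hh : ∀ j : Fin 5, ∀ x ∈ (GMc N).G (vi j),
      (GTtoBM hp h0 : (GMc N).X →ₗ[RR] (BMc N').X) x ∈ (BMc N').G (vi j) :=
    fun _ _ _ => trivial
  refine ⟨winMap5 _ hf, winMap5 _ hg, winMap5 _ hh, ?_, ?_, ?_, ?_⟩
  · refine winMap5_injective ?_
    intro x hx
    have hx' : GM.mk (isUHom_id N.tw) 0 (i (BM.v x)) = 0 := hx
    exact BM.ext ((injective_iff_map_eq_zero i).1 hinj _ (congrArg GM.s hx'))
  · refine winMap5_exact ?_ ?_
    · intro x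
      have : N.θ (i (BM.v x)) = 0 := (hex1 _).2 ⟨_, rfl⟩
      exact GM.ext (hφ := N.θ_hom) rfl this
    · intro j z _ hz
      have hz' : GM.mk N.θ_hom (GM.q (hφ := isUHom_id N.tw) z)
        (N.θ (GM.s (hφ := isUHom_id N.tw) z)) = 0 := hz
      have h1 : GM.q (hφ := isUHom_id N.tw) z = 0 := congrArg GM.q hz'
      have h2 : N.θ (GM.s (hφ := isUHom_id N.tw) z) = 0 := congrArg GM.s hz'
      obtain ⟨y, hy⟩ := (hex1 _).1 h2
      exact ⟨BM.mk y, trivial, GM.ext (hφ := isUHom_id N.tw) h1.symm hy⟩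
  · refine winMap5_exact ?_ ?_
    · intro x
      exact BM.ext (h0 _)
    · intro j z _ hz
      have hz' : p (GM.s z) = 0 := hz
      obtain ⟨y, hy⟩ := (hex2 _).1 hz'
      exact ⟨GM.mk (isUHom_id N.tw) (GM.q (hφ := N.θ_hom) z) y,
        ⟨N.tw.triv_mem j _, N.tw.triv_mem j _⟩, GM.ext (hφ := N.θ_hom) rfl hy⟩
  · refine winMap5_surjective ?_
    intro j z _
    obtain ⟨y, hy⟩ := hsurj (BM.v z)
    exact ⟨GM.mk N.θ_hom 0 y, trivial, BM.ext hy⟩

/-- If `θ` is bijective on `V ⊗ N` then `Ind_a (V ⊗ N) ≃ G(θ)`. -/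
theorem seq3 (N : UM) (h : Function.Bijective N.θ) :
    Nonempty ((FIndA N.tw.triv).Win ≃ₗ[WAR] (GMc N).Win) := by
  have hg : ∀ j : Fin 5, ∀ x ∈ (FIndA N.tw.triv).G (vi j),
      (IndAtoGT N : (FIndA N.tw.triv).X →ₗ[RR] (GMc N).X) x ∈ (GMc N).G (vi j) :=
    fun _ _ _ => trivial
  refine ⟨LinearEquiv.ofBijective (winMap5 _ hg) ⟨winMap5_injective ?_, winMap5_surjective ?_⟩⟩
  · intro z hz
    have hz' : GM.mk N.θ_hom (GM.q (hφ := isUHom_id N.tw) z)
      (N.θ (GM.s (hφ := isUHom_id N.tw) z)) = 0 := hz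
    have h1 : GM.q (hφ := isUHom_id N.tw) z = 0 := congrArg GM.q hz'
    have h2 : N.θ (GM.s (hφ := isUHom_id N.tw) z) = 0 := congrArg GM.s hz'
    exact GM.ext (hφ := isUHom_id N.tw) h1 ((injective_iff_map_eq_zero N.θ).1 h.1 _ h2)
  · intro j z _
    obtain ⟨y, hy⟩ := h.2 (GM.s (hφ := N.θ_hom) z)
    exact ⟨GM.mk (isUHom_id N.tw) (GM.q (hφ := N.θ_hom) z) y,
      ⟨N.tw.triv_mem j _, N.tw.triv_mem j _⟩, GM.ext (hφ := N.θ_hom) rfl hy⟩

/-- The window of a finite-dimensional module is finitely generated. -/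
theorem BMc_finite (N : UM) [Module.Finite ℂ N.carrier] : Module.Finite WAR (BMc N).Win := by
  letI : Module ℂ (BMc N).Win := Module.compHom _ (algebraMap ℂ WAR)
  have hs : ∀ (c : ℂ) (v : (BMc N).Win), c • v = (algebraMap ℂ WAR c) • v := fun _ _ => rfl
  haveI : IsScalarTower ℂ WAR (BMc N).Win := ⟨fun c M v => by
    rw [hs, Algebra.smul_def, mul_smul]⟩
  have hc : ∀ (c : ℂ) (v : (BMc N).Win) (i : Fin 5),
      BM.v ((c • v).c i) = c • BM.v (v.c i) := by
    intro c v i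
    rw [hs, FM.Win.smul_c, Finset.sum_eq_single i]
    · have h1 : (algebraMap ℂ WAR c).1 i i = algebraMap ℂ RR c := by
        change (algebraMap ℂ (Matrix (Fin 5) (Fin 5) RR) c) i i = _
        rw [Matrix.algebraMap_matrix_apply, if_pos rfl]
      rw [h1, Algebra.algebraMap_eq_smul_one]
      change ((c • (1 : RR)).um) • BM.v (v.c i) = _
      rw [RR.smul_um, RR.one_um, smul_assoc, one_smul]
    · intro j _ hj
      have h1 : (algebraMap ℂ WAR c).1 i j = 0 := by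
        change (algebraMap ℂ (Matrix (Fin 5) (Fin 5) RR) c) i j = _
        rw [Matrix.algebraMap_matrix_apply, if_neg (Ne.symm hj)]
      rw [h1, zero_smul]
    · intro h
      exact absurd (Finset.mem_univ _) h
  let φ : (BMc N).Win →ₗ[ℂ] (Fin 5 → N.carrier) :=
    { toFun := fun v i => BM.v (v.c i)
      map_add' := fun v w => rfl
      map_smul' := fun c v => funext fun i => hc c v i }
  have hφ : Function.Injective φ := by
    intro v w h
    exact FM.Win.ext fun i => congrFun h i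
  haveI : Module.Finite ℂ (BMc N).Win := Module.Finite.of_injective φ hφ
  exact Module.Finite.of_restrictScalars_finite ℂ WAR _

end Crest.Agent.R178B
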