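import Mathlib.LinearAlgebra.Finsupp.LSum
import Mathlib.LinearAlgebra.Finsupp.Supported
import Mathlib.LinearAlgebra.Finsupp.Pi
import Mathlib.Algebra.BigOperators.Intervals
import Mathlib.Data.Complex.Basic
import Mathlib.Tactic

/-!
Row 178 (S0268), team B: the one-variable exact sequence
`0 → L[X](-1) --(X - φ)--> L[X] --ev φ--> L → 0` with filtrations.
Polynomials with coefficients in `L` are `ℕ →₀ L`.
-/

set_option autoImplicit false

noncomputable section

namespace Crest.Agent.R178B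

open Finset

section OneVar

variable {k L : Type*} [CommRing k] [AddCommGroup L] [Module k L]

/-- multiplication by the variable -/
def mulX : (ℕ →₀ L) →ₗ[k] (ℕ →₀ L) := Finsupp.lmapDomain L k (fun n => n + 1)

@[simp] lemma mulX_single (j : ℕ) (l : L) :
    mulX (k := k) (Finsupp.single j l) = Finsupp.single (j + 1) l := by
  simp [mulX]

lemma mulX_zero_apply (p : ℕ →₀ L) : mulX (k := k) p 0 = 0 := by
  rw [mulX, Finsupp.lmapDomain_apply]
  exact Finsupp.mapDomain_of_notMem_range _ _ (by simp)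

lemma mulX_succ_apply (p : ℕ →₀ L) (n : ℕ) : mulX (k := k) p (n + 1) = p n := by
  rw [mulX, Finsupp.lmapDomain_apply]
  exact Finsupp.mapDomain_apply (f := fun n : ℕ => n + 1) (fun a b h => by simpa using h) p n

/-- coefficientwise application of `φ` -/
def co (φ : L →ₗ[k] L) : (ℕ →₀ L) →ₗ[k] (ℕ →₀ L) := Finsupp.mapRange.linearMap φ

@[simp] lemma co_single (φ : L →ₗ[k] L) (j : ℕ) (l : L) :
    co φ (Finsupp.single j l) = Finsupp.single j (φ l) := by
  simp [co]

@[simp] lemma co_apply (φ : L →ₗ[k] L) (p : ℕ →₀ L) (n : ℕ) : co φ p n = φ (p n) := rfl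

/-- `X - φ` -/
def delta (φ : L →ₗ[k] L) : (ℕ →₀ L) →ₗ[k] (ℕ →₀ L) := mulX - co φ

lemma delta_apply (φ : L →ₗ[k] L) (p : ℕ →₀ L) : delta φ p = mulX (k := k) p - co φ p := rfl

/-- substitution `X = φ` -/
def evl (φ : L →ₗ[k] L) : (ℕ →₀ L) →ₗ[k] L := Finsupp.lsum k fun n => φ ^ n

@[simp] lemma evl_single (φ : L →ₗ[k] L) (j : ℕ) (l : L) :
    evl φ (Finsupp.single j l) = (φ ^ j) l := by
  simp [evl]

/-- Horner quotient -/
def horner (φ : L →ₗ[k] L) : (ℕ →₀ L) →ₗ[k] (ℕ →₀ L) :=
  Finsupp.lsum k fun j => ∑ i ∈ range j, Finsupp.lsingle i ∘ₗ (φ ^ (j - 1 - i))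

lemma horner_single (φ : L →ₗ[k] L) (j : ℕ) (l : L) :
    horner φ (Finsupp.single j l) =
      ∑ i ∈ range j, Finsupp.single i ((φ ^ (j - 1 - i)) l) := by
  simp [horner]

lemma evl_delta (φ : L →ₗ[k] L) (p : ℕ →₀ L) : evl φ (delta φ p) = 0 := by
  have : evl φ ∘ₗ delta φ = 0 := by
    ext j l
    simp only [LinearMap.comp_apply, Finsupp.lsingle_apply, delta_apply, mulX_single, co_single,
      map_sub, evl_single, LinearMap.zero_apply]
    rw [pow_succ, Module.End.mul_apply, sub_self]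
  exact LinearMap.congr_fun this p

lemma delta_horner (φ : L →ₗ[k] L) (p : ℕ →₀ L) :
    delta φ (horner φ p) = p - Finsupp.single 0 (evl φ p) := by
  have : delta φ ∘ₗ horner φ = LinearMap.id - Finsupp.lsingle 0 ∘ₗ evl φ := by
    ext j l : 2
    simp only [LinearMap.comp_apply, Finsupp.lsingle_apply, LinearMap.sub_apply,
      LinearMap.id_apply, evl_single, horner_single, map_sum]
    have h : ∀ i ∈ range j, delta φ (Finsupp.single i ((φ ^ (j - 1 - i)) l)) =
        (fun i => Finsupp.single i ((φ ^ (j - i)) l)) (i + 1) -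
          (fun i => Finsupp.single i ((φ ^ (j - i)) l)) i := by
      intro i hi
      have hij : i < j := mem_range.1 hi
      rw [delta_apply, mulX_single, co_single]
      have h1 : j - 1 - i = j - (i + 1) := by omega
      have h2 : j - i = (j - (i + 1)) + 1 := by omega
      simp only
      rw [h1, h2, pow_succ', Module.End.mul_apply]
    rw [Finset.sum_congr rfl h,
      Finset.sum_range_sub (fun i => Finsupp.single i ((φ ^ (j - i)) l)) j]
    simp
  exact LinearMap.congr_fun this p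

lemma horner_delta (φ : L →ₗ[k] L) (p : ℕ →₀ L) : horner φ (delta φ p) = p := by
  have : horner φ ∘ₗ delta φ = LinearMap.id := by
    ext j l : 2
    simp only [LinearMap.comp_apply, Finsupp.lsingle_apply, LinearMap.id_apply, delta_apply,
      mulX_single, co_single, map_sub, horner_single]
    rw [Finset.sum_range_succ]
    have h : ∀ i ∈ range j, Finsupp.single i ((φ ^ (j + 1 - 1 - i)) l) =
        Finsupp.single i ((φ ^ (j - 1 - i)) (φ l)) := by
      intro i hi
      have hij : i < j := mem_range.1 hi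
      have h1 : j + 1 - 1 - i = (j - 1 - i) + 1 := by omega
      rw [h1, pow_succ, Module.End.mul_apply]
    rw [Finset.sum_congr rfl h]
    simp
  exact LinearMap.congr_fun this p

lemma delta_injective (φ : L →ₗ[k] L) : Function.Injective (delta φ) :=
  Function.LeftInverse.injective (horner_delta φ)

lemma evl_surjective (φ : L →ₗ[k] L) : Function.Surjective (evl φ) := fun l =>
  ⟨Finsupp.single 0 l, by simp⟩

/-- The filtration of `L[X]` : the coefficient of `X ^ n` lies in step `i - n`. -/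
def polyFil (G : ℤ → Submodule k L) (i : ℤ) : Submodule k (ℕ →₀ L) where
  carrier := {p | ∀ n : ℕ, p n ∈ G (i - n)}
  add_mem' := fun {p q} hp hq n => by
    rw [Finsupp.add_apply]
    exact (G _).add_mem (hp n) (hq n)
  zero_mem' := fun n => by
    rw [Finsupp.zero_apply]
    exact (G _).zero_mem
  smul_mem' := fun c p hp n => by
    rw [Finsupp.smul_apply]
    exact (G _).smul_mem c (hp n)

lemma mem_polyFil {G : ℤ → Submodule k L} {i : ℤ} {p : ℕ →₀ L} :
    p ∈ polyFil G i ↔ ∀ n : ℕ, p n ∈ G (i - n) := Iff.rfl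

lemma single_mem_polyFil {G : ℤ → Submodule k L} {i : ℤ} {j : ℕ} {l : L} (h : l ∈ G (i - j)) :
    Finsupp.single j l ∈ polyFil G i := by
  classical
  intro n
  rw [Finsupp.single_apply]
  split_ifs with hn
  · rwa [← hn]
  · exact (G _).zero_mem

lemma mem_polyFil_iff_single {G : ℤ → Submodule k L} {i : ℤ} {p : ℕ →₀ L} :
    p ∈ polyFil G i ↔ ∀ n, Finsupp.single n (p n) ∈ polyFil G i := by
  classical
  constructor
  · intro h n
    exact single_mem_polyFil (h n)
  · intro h n
    have := h n n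
    rwa [Finsupp.single_eq_same] at this

lemma pow_mem {G : ℤ → Submodule k L} {φ : L →ₗ[k] L} (hφ : ∀ i, ∀ l ∈ G i, φ l ∈ G (i + 1))
    (n : ℕ) : ∀ i, ∀ l ∈ G i, (φ ^ n) l ∈ G (i + n) := by
  induction n with
  | zero => intro i l hl; simpa using hl
  | succ n ih =>
    intro i l hl
    rw [pow_succ', Module.End.mul_apply]
    have := hφ _ _ (ih i l hl)
    push_cast
    rwa [add_assoc] at this

/-- A linear map out of `L[X]` respects filtrations if it does so on monomials. -/
lemma map_polyFil_mem {M : Type*} [AddCommGroup M] [Module k M] {G : ℤ → Submodule k L}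
    (N : Submodule k M) (f : (ℕ →₀ L) →ₗ[k] M) {i : ℤ}
    (h : ∀ (j : ℕ) (l : L), l ∈ G (i - j) → f (Finsupp.single j l) ∈ N) {p : ℕ →₀ L}
    (hp : p ∈ polyFil G i) : f p ∈ N := by
  classical
  have : p = ∑ n ∈ p.support, Finsupp.single n (p n) := (Finsupp.sum_single p).symm
  rw [this, map_sum]
  exact N.sum_mem fun n _ => h n _ (hp n)

lemma delta_mem {G : ℤ → Submodule k L} {φ : L →ₗ[k] L} (hφ : ∀ i, ∀ l ∈ G i, φ l ∈ G (i + 1))
    {i : ℤ} {p : ℕ →₀ L} (hp : p ∈ polyFil G (i - 1)) : delta φ p ∈ polyFil G i := by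
  refine map_polyFil_mem _ (delta φ) (fun j l hl => ?_) hp
  rw [delta_apply, mulX_single, co_single]
  refine (polyFil G i).sub_mem (single_mem_polyFil ?_) (single_mem_polyFil ?_)
  · push_cast
    rwa [show i - ((j : ℤ) + 1) = i - 1 - j by ring]
  · have := hφ _ _ hl
    rwa [show i - 1 - (j : ℤ) + 1 = i - j by ring] at this

lemma horner_mem {G : ℤ → Submodule k L} {φ : L →ₗ[k] L} (hφ : ∀ i, ∀ l ∈ G i, φ l ∈ G (i + 1))
    {i : ℤ} {p : ℕ →₀ L} (hp : p ∈ polyFil G i) : horner φ p ∈ polyFil G (i - 1) := by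
  refine map_polyFil_mem _ (horner φ) (fun j l hl => ?_) hp
  rw [horner_single]
  refine Submodule.sum_mem _ fun m hm => single_mem_polyFil ?_
  have hmj : m < j := mem_range.1 hm
  have := pow_mem hφ (j - 1 - m) _ _ hl
  have h2 : i - (j : ℤ) + ((j - 1 - m : ℕ) : ℤ) = i - 1 - m := by
    have : ((j - 1 - m : ℕ) : ℤ) = (j : ℤ) - 1 - m := by omega
    rw [this]; ring
  rwa [h2] at this

lemma evl_mem {G : ℤ → Submodule k L} {φ : L →ₗ[k] L} (hφ : ∀ i, ∀ l ∈ G i, φ l ∈ G (i + 1))
    {i : ℤ} {p : ℕ →₀ L} (hp : p ∈ polyFil G i) : evl φ p ∈ G i := by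
  refine map_polyFil_mem _ (evl φ) (fun j l hl => ?_) hp
  rw [evl_single]
  have := pow_mem hφ j _ _ hl
  rwa [show i - (j : ℤ) + j = i by ring] at this

/-- filtered exactness in the middle -/
theorem exists_delta_eq {G : ℤ → Submodule k L} {φ : L →ₗ[k] L}
    (hφ : ∀ i, ∀ l ∈ G i, φ l ∈ G (i + 1)) {i : ℤ} {p : ℕ →₀ L} (hp : p ∈ polyFil G i)
    (h0 : evl φ p = 0) : ∃ q ∈ polyFil G (i - 1), delta φ q = p :=
  ⟨horner φ p, horner_mem hφ hp, by rw [delta_horner, h0]; simp⟩

/-- filtered surjectivity -/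
theorem exists_evl_eq {G : ℤ → Submodule k L} (φ : L →ₗ[k] L) {i : ℤ} {l : L} (hl : l ∈ G i) :
    ∃ p ∈ polyFil G i, evl φ p = l :=
  ⟨Finsupp.single 0 l, single_mem_polyFil (by simpa using hl), by simp⟩

end OneVar

end Crest.Agent.R178B
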