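import Crest.Agent.R178B.Ring
import Crest.Agent.R178B.OneVar

/-!
Row 178 (S0268), version B: interface definitions and exact statements of the modules
`Chain.lean` (statement `ChainStmt`), `Vn.lean` (statement `VnStmt`), ...
-/

set_option autoImplicit false
set_option linter.all false

open scoped Matrix.Module

noncomputable section

namespace Crest.Agent.R178B

open Matrix

/-! ## Filtered exact sequences -/

/-- Filtered short exact sequence `0 → L' → L → L'' → 0` of `ℂ`-spaces. -/
structure FExact {L' L L'' : Type} [AddCommGroup L'] [Module ℂ L'] [AddCommGroup L] [Module ℂ L]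
    [AddCommGroup L''] [Module ℂ L''] (F' : ℤ → Submodule ℂ L') (F : ℤ → Submodule ℂ L)
    (F'' : ℤ → Submodule ℂ L'') (f : L' →ₗ[ℂ] L) (g : L →ₗ[ℂ] L'') : Prop where
  inj : Function.Injective f
  comp : ∀ x, g (f x) = 0
  mapf : ∀ i, ∀ x ∈ F' i, f x ∈ F i
  mapg : ∀ i, ∀ x ∈ F i, g x ∈ F'' i
  lift : ∀ i, ∀ x ∈ F i, g x = 0 → ∃ y ∈ F' i, f y = x
  surj : ∀ i, ∀ z ∈ F'' i, ∃ x ∈ F i, g x = z

/-- shift of the filtration: `N(-s)`. -/
def FUM.shift (N : FUM) (s : ℤ) : FUM where
  toUM := N.toUM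
  fil i := N.fil (i - s)
  mono i := by have := N.mono (i - s); rwa [show i - s + 1 = i + 1 - s by ring] at this
  fa i x hx := by have := N.fa (i - s) x hx; rwa [show i - s + 1 = i + 1 - s by ring] at this
  fd i x hx := by have := N.fd (i - s) x hx; rwa [show i - s + 1 = i + 1 - s by ring] at this
  fe i x hx := by have := N.fe (i - s) x hx; rwa [show i - s + 1 = i + 1 - s by ring] at this
  ff i x hx := by have := N.ff (i - s) x hx; rwa [show i - s + 1 = i + 1 - s by ring] at this

/-- Filtered short exact sequence of filtered `U`-modules. -/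
structure SES (N' N N'' : FUM) (f : N'.carrier →ₗ[ℂ] N.carrier) (g : N.carrier →ₗ[ℂ] N''.carrier) :
    Prop where
  hf : IsUHom f
  hg : IsUHom g
  ex : FExact N'.fil N.fil N''.fil f g

/-- trivial filtration -/
def trivFil (L : Type) [AddCommGroup L] [Module ℂ L] (i : ℤ) : Submodule ℂ L :=
  if 0 ≤ i then ⊤ else ⊥

lemma trivFil_mono {L : Type} [AddCommGroup L] [Module ℂ L] (i : ℤ) :
    trivFil L i ≤ trivFil L (i + 1) := by
  unfold trivFil
  by_cases h1 : 0 ≤ i
  · rw [if_pos h1, if_pos (by omega)]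
  · rw [if_neg h1]; exact bot_le

lemma trivFil_map {L : Type} [AddCommGroup L] [Module ℂ L] (T : L →ₗ[ℂ] L) (i : ℤ) (x : L)
    (hx : x ∈ trivFil L i) : T x ∈ trivFil L (i + 1) := by
  unfold trivFil at hx ⊢
  by_cases h1 : 0 ≤ i
  · rw [if_pos (by omega : 0 ≤ i + 1)]; trivial
  · rw [if_neg h1] at hx
    rw [(Submodule.mem_bot ℂ).1 hx, map_zero]
    exact Submodule.zero_mem _

/-- A `U`-module with the trivial filtration (everything in degree `0`). -/
def UM.triv (N : UM) : FUM where
  toUM := N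
  fil := trivFil N.carrier
  mono i := trivFil_mono i
  fa i x hx := trivFil_map _ i x hx
  fd i x hx := trivFil_map _ i x hx
  fe i x hx := trivFil_map _ i x hx
  ff i x hx := trivFil_map _ i x hx

/-- `N` is a free filtered `U`-module with basis `n j`, `j : J`, in degree `0`. -/
structure IsFilFree (N : FUM) {J : Type} [Fintype J] (n : J → N.carrier) : Prop where
  mem : ∀ j, n j ∈ N.fil 0
  inj : ∀ u : J → U, ∑ j, u j • n j = 0 → ∀ j, u j = 0
  surj : ∀ (i : ℤ) (x : N.carrier), x ∈ N.fil i →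
    ∃ u : J → U, (∀ j, u j ∈ U.fil i) ∧ ∑ j, u j • n j = x

/-- **B3** (helper528).  `L.triv` is reached from free filtered modules by four
one-variable exact sequences `0 → N'(-1) → N → N'' → 0`:
`N'' = L`, `N = L[F]`, `N' = L*[F]`; each of these is the cokernel for `L[E][F]`, ... -/
def ChainStmt : Prop :=
  ∀ (P : ℕ → FUM → Prop),
    (∀ (N : FUM) (J : Type) [Fintype J] [Nonempty J] (n : J → N.carrier),
      IsFilFree N n → P 0 N) →
    (∀ (j : ℕ) (N' N N'' : FUM) (f : N'.carrier →ₗ[ℂ] N.carrier)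
      (g : N.carrier →ₗ[ℂ] N''.carrier), SES (N'.shift 1) N N'' f g →
      P j N' → P j N → P (j + 1) N'') →
    ∀ (L : UM) [Module.Finite ℂ L.carrier] [Nontrivial L.carrier], P 4 L.triv

/-! ## The twist `V ⊗ N ⊗ det⁻¹` and `θ` on modules -/

/-- operator on `Fin 2 → N` given by four operators -/
def mat2 {N : Type} [AddCommGroup N] [Module ℂ N] (p q r s : Module.End ℂ N) :
    Module.End ℂ (Fin 2 → N) where
  toFun v := ![p (v 0) + q (v 1), r (v 0) + s (v 1)]
  map_add' v w := by
    ext i; fin_cases i <;> simp <;> abel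
  map_smul' c v := by
    ext i; fin_cases i <;> simp

@[simp] lemma mat2_zero {N : Type} [AddCommGroup N] [Module ℂ N] (p q r s : Module.End ℂ N)
    (v : Fin 2 → N) : mat2 p q r s v 0 = p (v 0) + q (v 1) := rfl
@[simp] lemma mat2_one {N : Type} [AddCommGroup N] [Module ℂ N] (p q r s : Module.End ℂ N)
    (v : Fin 2 → N) : mat2 p q r s v 1 = r (v 0) + s (v 1) := rfl

/-- `V ⊗ N ⊗ det⁻¹`: the `U`-module `N²` on which `u` acts by `Δ u`. -/
def UM.tw (N : UM) : UM where
  carrier := Fin 2 → N.carrier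
  a := mat2 N.a 0 0 (N.a - 1)
  d := mat2 (N.d - 1) 0 0 N.d
  e := mat2 N.e 1 0 N.e
  f := mat2 N.f 0 1 N.f
  rel := by
    have ad : ∀ x, N.a (N.d x) = N.d (N.a x) := LinearMap.congr_fun N.rel.ad
    have ae : ∀ x, N.a (N.e x) = N.e (N.a x) + N.e x := LinearMap.congr_fun N.rel.ae
    have de : ∀ x, N.d (N.e x) = N.e (N.d x) - N.e x := LinearMap.congr_fun N.rel.de
    have af : ∀ x, N.a (N.f x) = N.f (N.a x) - N.f x := LinearMap.congr_fun N.rel.af
    have df : ∀ x, N.d (N.f x) = N.f (N.d x) + N.f x := LinearMap.congr_fun N.rel.df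
    have ef : ∀ x, N.e (N.f x) = N.f (N.e x) + N.a x - N.d x := LinearMap.congr_fun N.rel.ef
    constructor <;> refine LinearMap.ext fun v => ?_ <;> funext i <;> fin_cases i <;>
      simp [Module.End.mul_apply, ad, ae, de, af, df, ef] <;> abel

/-- `θ` acting on `N²`. -/
def UM.θ (N : UM) : N.tw.carrier →ₗ[ℂ] N.tw.carrier := mat2 (N.a + 1) N.f N.e (N.d + 1)

lemma UM.tw_smul (N : UM) (u : U) (v : Fin 2 → N.carrier) :
    ((u • (show N.tw.carrier from v) : N.tw.carrier) : Fin 2 → N.carrier) = Δ u • v := by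
  revert v
  refine U.induction (p := fun u => ∀ v : Fin 2 → N.carrier,
    ((u • (show N.tw.carrier from v) : N.tw.carrier) : Fin 2 → N.carrier) = Δ u • v) ?_ ?_ ?_ ?_ u
  · intro c v
    rw [algebraMap_smul, AlgHom.commutes]
    change c • v = _
    funext i
    fin_cases i <;> simp [Matrix.Module.smul_apply, Matrix.algebraMap_matrix_apply]
  · intro g v
    cases g
    · rw [show Δ (U.g .a) = Δa from U.lift_a _, UM.a_smul]
      change (mat2 N.a 0 0 (N.a - 1) : Module.End ℂ (Fin 2 → N.carrier)) v = _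
      funext i
      fin_cases i <;> simp [Δa, Matrix.Module.smul_apply, sub_smul]
    · rw [show Δ (U.g .d) = Δd from U.lift_d _, UM.d_smul]
      change (mat2 (N.d - 1) 0 0 N.d : Module.End ℂ (Fin 2 → N.carrier)) v = _
      funext i
      fin_cases i <;> simp [Δd, Matrix.Module.smul_apply, sub_smul]
    · rw [show Δ (U.g .e) = Δe from U.lift_e _, UM.e_smul]
      change (mat2 N.e 1 0 N.e : Module.End ℂ (Fin 2 → N.carrier)) v = _
      funext i
      fin_cases i <;> simp [Δe, Matrix.Module.smul_apply, sub_smul]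
    · rw [show Δ (U.g .f) = Δf from U.lift_f _, UM.f_smul]
      change (mat2 N.f 0 1 N.f : Module.End ℂ (Fin 2 → N.carrier)) v = _
      funext i
      fin_cases i <;> simp [Δf, Matrix.Module.smul_apply, sub_smul]
  · intro u w hu hw v
    rw [add_smul, map_add, add_smul, ← hu, ← hw]; rfl
  · intro u w hu hw v
    rw [mul_smul, map_mul, mul_smul, ← hw, ← hu]

/-- **B1** (helper632). -/
def VnStmt (V : ℕ → UM) : Prop :=
  (∀ n, Module.Finite ℂ (V n).carrier) ∧ (∀ n, Nontrivial (V n).carrier) ∧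
  Function.Bijective (V 0).θ ∧
  ∀ n, ∃ (i : (V n).carrier →ₗ[ℂ] (V (n + 1)).tw.carrier)
    (p : (V (n + 1)).tw.carrier →ₗ[ℂ] (V n).carrier),
    IsUHom i ∧ IsUHom p ∧ Function.Injective i ∧ Function.Exact i (V (n + 1)).θ ∧
      Function.Exact (V (n + 1)).θ p ∧ Function.Surjective p

end Crest.Agent.R178B
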