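import Crest.Agent.R178B.Defs

/-!
Row 178 (S0268), version B: coproduct `Δ`, the matrix `θ`, the ring `RR`, its filtration, the
finite-dimensional algebra `A`, windows.
-/

set_option autoImplicit false
set_option linter.all false

open scoped Matrix.Module

noncomputable section

namespace Crest.Agent.R178B

open Matrix

/-! ## `Δ` and `θ` -/

/-- matrices of `Δ(x)` -/
def Δa : Matrix (Fin 2) (Fin 2) U := !![U.g .a, 0; 0, U.g .a - 1]
def Δd : Matrix (Fin 2) (Fin 2) U := !![U.g .d - 1, 0; 0, U.g .d]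
def Δe : Matrix (Fin 2) (Fin 2) U := !![U.g .e, 1; 0, U.g .e]
def Δf : Matrix (Fin 2) (Fin 2) U := !![U.g .f, 0; 1, U.g .f]

lemma Δ_isGL2 : IsGL2 Δa Δd Δe Δf := by
  have h := U.isGL2
  constructor
  · ext i j; fin_cases i <;> fin_cases j <;>
      simp [Δa, Δd, Matrix.mul_apply, Fin.sum_univ_two, mul_sub, sub_mul, h.ad]
  · ext i j; fin_cases i <;> fin_cases j <;>
      simp [Δa, Δe, Matrix.mul_apply, Fin.sum_univ_two, mul_sub, sub_mul, h.ae] <;> abel
  · ext i j; fin_cases i <;> fin_cases j <;>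
      simp [Δd, Δe, Matrix.mul_apply, Fin.sum_univ_two, mul_sub, sub_mul, h.de] <;> abel
  · ext i j; fin_cases i <;> fin_cases j <;>
      simp [Δa, Δf, Matrix.mul_apply, Fin.sum_univ_two, mul_sub, sub_mul, h.af] <;> abel
  · ext i j; fin_cases i <;> fin_cases j <;>
      simp [Δd, Δf, Matrix.mul_apply, Fin.sum_univ_two, mul_sub, sub_mul, h.df] <;> abel
  · ext i j; fin_cases i <;> fin_cases j <;>
      simp [Δa, Δd, Δe, Δf, Matrix.mul_apply, Fin.sum_univ_two, mul_sub, sub_mul, h.ef] <;> abel

/-- `Δ : U → M₂(U)` (the algebra acting on `V ⊗ - ⊗ det⁻¹`). -/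
def Δ : U →ₐ[ℂ] Matrix (Fin 2) (Fin 2) U := U.lift Δ_isGL2

/-- the matrix `θ`. -/
def θ : Matrix (Fin 2) (Fin 2) U := !![U.g .a + 1, U.g .f; U.g .e, U.g .d + 1]

lemma θ_comm (u : U) : θ * Δ u = Δ u * θ := by
  have h := U.isGL2
  refine U.induction (p := fun u => θ * Δ u = Δ u * θ) ?_ ?_ ?_ ?_ u
  · intro c
    rw [AlgHom.commutes]; exact (Algebra.commutes c θ).symm
  · intro g
    cases g
    · rw [show Δ (U.g .a) = Δa from U.lift_a _]
      ext i j; fin_cases i <;> fin_cases j <;>
        simp [Δa, θ, Matrix.mul_apply, Fin.sum_univ_two, mul_sub, sub_mul, mul_add, add_mul,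
          h.ae, h.af, h.ad]
      abel
    · rw [show Δ (U.g .d) = Δd from U.lift_d _]
      ext i j; fin_cases i <;> fin_cases j <;>
        simp [Δd, θ, Matrix.mul_apply, Fin.sum_univ_two, mul_sub, sub_mul, mul_add, add_mul,
          h.de, h.df, h.ad]
      abel
    · rw [show Δ (U.g .e) = Δe from U.lift_e _]
      ext i j; fin_cases i <;> fin_cases j <;>
        simp [Δe, θ, Matrix.mul_apply, Fin.sum_univ_two, mul_sub, sub_mul, mul_add, add_mul,
          h.ae, h.de, h.ef] <;> abel
    · rw [show Δ (U.g .f) = Δf from U.lift_f _]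
      ext i j; fin_cases i <;> fin_cases j <;>
        simp [Δf, θ, Matrix.mul_apply, Fin.sum_univ_two, mul_sub, sub_mul, mul_add, add_mul,
          h.af, h.df, h.ef] <;> abel
  · intro u v hu hv; simp only [map_add, mul_add, add_mul, hu, hv]
  · intro u v hu hv
    rw [map_mul, ← mul_assoc, hu, mul_assoc, hv, mul_assoc]

/-! ## the ring `RR` -/

/-- `RR = {(um, ua, io, x, y)}`. -/
def RR : Type := U × U × U × (Fin 2 → U) × (Fin 2 → U)

namespace RR

instance : AddCommGroup RR := inferInstanceAs (AddCommGroup (U × U × U × (Fin 2 → U) × (Fin 2 → U)))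
instance : Module ℂ RR := inferInstanceAs (Module ℂ (U × U × U × (Fin 2 → U) × (Fin 2 → U)))

/-- constructor -/
def mk (um ua io : U) (x y : Fin 2 → U) : RR := (um, ua, io, x, y)
/-- main-main component -/
def um (r : RR) : U := r.1
/-- aux-aux component -/
def ua (r : RR) : U := r.2.1
/-- aux → main component -/
def io (r : RR) : U := r.2.2.1
/-- `V ⊗ main → aux` component -/
def x (r : RR) : Fin 2 → U := r.2.2.2.1
/-- `V ⊗ main → main` component -/
def y (r : RR) : Fin 2 → U := r.2.2.2.2

@[ext] lemma ext {r s : RR} (h1 : r.um = s.um) (h2 : r.ua = s.ua) (h3 : r.io = s.io)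
    (h4 : r.x = s.x) (h5 : r.y = s.y) : r = s :=
  Prod.ext h1 (Prod.ext h2 (Prod.ext h3 (Prod.ext h4 h5)))

section
variable (a b c : U) (p q : Fin 2 → U)
@[simp] lemma mk_um : (mk a b c p q).um = a := rfl
@[simp] lemma mk_ua : (mk a b c p q).ua = b := rfl
@[simp] lemma mk_io : (mk a b c p q).io = c := rfl
@[simp] lemma mk_x : (mk a b c p q).x = p := rfl
@[simp] lemma mk_y : (mk a b c p q).y = q := rfl
end

@[simp] lemma zero_um : (0 : RR).um = 0 := rfl
@[simp] lemma zero_ua : (0 : RR).ua = 0 := rfl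
@[simp] lemma zero_io : (0 : RR).io = 0 := rfl
@[simp] lemma zero_x : (0 : RR).x = 0 := rfl
@[simp] lemma zero_y : (0 : RR).y = 0 := rfl
@[simp] lemma add_um (r s : RR) : (r + s).um = r.um + s.um := rfl
@[simp] lemma add_ua (r s : RR) : (r + s).ua = r.ua + s.ua := rfl
@[simp] lemma add_io (r s : RR) : (r + s).io = r.io + s.io := rfl
@[simp] lemma add_x (r s : RR) : (r + s).x = r.x + s.x := rfl
@[simp] lemma add_y (r s : RR) : (r + s).y = r.y + s.y := rfl
@[simp] lemma smul_um (c : ℂ) (r : RR) : (c • r).um = c • r.um := rfl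
@[simp] lemma smul_ua (c : ℂ) (r : RR) : (c • r).ua = c • r.ua := rfl
@[simp] lemma smul_io (c : ℂ) (r : RR) : (c • r).io = c • r.io := rfl
@[simp] lemma smul_x (c : ℂ) (r : RR) : (c • r).x = c • r.x := rfl
@[simp] lemma smul_y (c : ℂ) (r : RR) : (c • r).y = c • r.y := rfl

instance : One RR := ⟨mk 1 1 0 0 0⟩
@[simp] lemma one_um : (1 : RR).um = 1 := rfl
@[simp] lemma one_ua : (1 : RR).ua = 1 := rfl
@[simp] lemma one_io : (1 : RR).io = 0 := rfl
@[simp] lemma one_x : (1 : RR).x = 0 := rfl
@[simp] lemma one_y : (1 : RR).y = 0 := rfl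

/-- `x * s` on each component. -/
def rmul (v : Fin 2 → U) (u : U) : Fin 2 → U := fun i => v i * u

@[simp] lemma rmul_apply (v : Fin 2 → U) (u : U) (i : Fin 2) : rmul v u i = v i * u := rfl

instance : Mul RR := ⟨fun r s => mk (r.um * s.um) (r.ua * s.ua) (r.io * s.ua + r.um * s.io)
  (rmul r.x s.um + Δ r.ua *ᵥ s.x) (rmul r.y s.um + (θ * Δ r.io) *ᵥ s.x + Δ r.um *ᵥ s.y)⟩

@[simp] lemma mul_um (r s : RR) : (r * s).um = r.um * s.um := rfl
@[simp] lemma mul_ua (r s : RR) : (r * s).ua = r.ua * s.ua := rfl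
@[simp] lemma mul_io (r s : RR) : (r * s).io = r.io * s.ua + r.um * s.io := rfl
@[simp] lemma mul_x (r s : RR) : (r * s).x = rmul r.x s.um + Δ r.ua *ᵥ s.x := rfl
@[simp] lemma mul_y (r s : RR) :
    (r * s).y = rmul r.y s.um + (θ * Δ r.io) *ᵥ s.x + Δ r.um *ᵥ s.y := rfl

lemma rmul_add_right (v : Fin 2 → U) (a b : U) : rmul v (a + b) = rmul v a + rmul v b := by
  ext i; simp [mul_add]
lemma rmul_add_left (v w : Fin 2 → U) (a : U) : rmul (v + w) a = rmul v a + rmul w a := by
  ext i; simp [add_mul]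
@[simp] lemma rmul_zero (v : Fin 2 → U) : rmul v 0 = 0 := by ext i; simp
@[simp] lemma zero_rmul (u : U) : rmul 0 u = 0 := by ext i; simp
@[simp] lemma rmul_one (v : Fin 2 → U) : rmul v 1 = v := by ext i; simp
lemma rmul_mul (v : Fin 2 → U) (a b : U) : rmul v (a * b) = rmul (rmul v a) b := by
  ext i; simp [mul_assoc]
lemma rmul_mulVec (M : Matrix (Fin 2) (Fin 2) U) (v : Fin 2 → U) (a : U) :
    rmul (M *ᵥ v) a = M *ᵥ (rmul v a) := by
  ext i; simp only [rmul_apply, Matrix.mulVec, dotProduct, Finset.sum_mul, mul_assoc]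

instance : Ring RR :=
  { (inferInstance : AddCommGroup RR) with
    one := 1
    mul := (· * ·)
    left_distrib := by
      intro r s t
      ext1
      · simp [mul_add]
      · simp [mul_add]
      · simp only [mul_io, add_ua, add_io, add_um, mul_add]; abel
      · simp only [mul_x, add_um, add_x, rmul_add_right, Matrix.mulVec_add]; abel
      · simp only [mul_y, add_um, add_x, add_y, rmul_add_right, Matrix.mulVec_add]; abel
    right_distrib := by
      intro r s t
      ext1
      · simp [add_mul]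
      · simp [add_mul]
      · simp only [mul_io, add_ua, add_io, add_um, add_mul]; abel
      · simp only [mul_x, add_ua, add_x, map_add, rmul_add_left, Matrix.add_mulVec]; abel
      · simp only [mul_y, add_um, add_io, add_x, add_y, map_add, mul_add, rmul_add_left,
          Matrix.add_mulVec]; abel
    zero_mul := by intro r; ext1 <;> simp
    mul_zero := by intro r; ext1 <;> simp
    one_mul := by intro r; ext1 <;> simp
    mul_one := by intro r; ext1 <;> simp
    mul_assoc := by
      intro r s t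
      ext1
      · simp [mul_assoc]
      · simp [mul_assoc]
      · simp [mul_assoc, mul_add, add_mul, add_assoc]
      · simp only [mul_x, mul_um, mul_ua, map_mul, rmul_mul, rmul_add_left, rmul_mulVec,
          Matrix.mulVec_add, Matrix.mulVec_mulVec, add_assoc]
      · have key : θ * (Δ r.um * Δ s.io) = Δ r.um * (θ * Δ s.io) := by
          rw [← mul_assoc, θ_comm, mul_assoc]
        simp only [mul_y, mul_x, mul_um, mul_io, map_add, map_mul, mul_add, Matrix.add_mulVec,
          rmul_mul, rmul_add_left, rmul_mulVec, Matrix.mulVec_add, Matrix.mulVec_mulVec,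
          mul_assoc, key]
        abel }

lemma smul_rmul (c : ℂ) (v : Fin 2 → U) (a : U) : rmul (c • v) a = c • rmul v a := by
  ext i; simp
lemma rmul_smul (c : ℂ) (v : Fin 2 → U) (a : U) : rmul v (c • a) = c • rmul v a := by
  ext i; simp

instance : Algebra ℂ RR := Algebra.ofModule
  (by
    intro c r s
    ext1
    · simp
    · simp
    · simp
    · simp only [mul_x, smul_x, smul_ua, map_smul, smul_rmul, Matrix.smul_mulVec, smul_add]
    · simp only [mul_y, smul_x, smul_y, smul_io, smul_um, map_smul, smul_rmul,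
        Matrix.smul_mulVec, smul_add, mul_smul_comm])
  (by
    intro c r s
    ext1
    · simp
    · simp
    · simp
    · simp only [mul_x, smul_x, smul_um, rmul_smul, Matrix.mulVec_smul, smul_add]
    · simp only [mul_y, smul_x, smul_y, smul_um, rmul_smul, Matrix.mulVec_smul, smul_add])

end RR

end Crest.Agent.R178B
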