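import Crest.Agent.R178B.Intf

/-!
Row 178 (S0268), version B, module B1: the `U`-modules `V n = Sym^n ℂ²` and the exact sequences
`0 → V n → (V (n+1)).tw --θ--> (V (n+1)).tw → V n → 0`.
`V n` = sequences `c : ℕ → ℂ` supported in `[0, n]` (`c` stands for `∑ c i m_i`).
-/

set_option autoImplicit false
set_option linter.all false

noncomputable section

namespace Crest.Agent.R178B

/-- sequences supported in `[0, n]` -/
def Wn (n : ℕ) : Submodule ℂ (ℕ → ℂ) where
  carrier := {c | ∀ i, n < i → c i = 0}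
  add_mem' := fun {x y} hx hy i hi => by simp [hx i hi, hy i hi]
  zero_mem' := fun i hi => rfl
  smul_mem' := fun c x hx i hi => by simp [hx i hi]

lemma mem_Wn {n : ℕ} {c : ℕ → ℂ} : c ∈ Wn n ↔ ∀ i, n < i → c i = 0 := Iff.rfl

def opA : (ℕ → ℂ) →ₗ[ℂ] (ℕ → ℂ) where
  toFun c i := (i : ℂ) * c i
  map_add' x y := by ext i; simp [mul_add]
  map_smul' r x := by ext i; simp; ring

def opD (n : ℕ) : (ℕ → ℂ) →ₗ[ℂ] (ℕ → ℂ) where
  toFun c i := ((n : ℂ) - i) * c i
  map_add' x y := by ext i; simp [mul_add]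
  map_smul' r x := by ext i; simp; ring

/-- shift up -/
def up (g : ℕ → ℂ) : ℕ → ℂ
  | 0 => 0
  | (i + 1) => g i

@[simp] lemma up_zero (g : ℕ → ℂ) : up g 0 = 0 := rfl
@[simp] lemma up_succ (g : ℕ → ℂ) (i : ℕ) : up g (i + 1) = g i := rfl

def opE (n : ℕ) : (ℕ → ℂ) →ₗ[ℂ] (ℕ → ℂ) where
  toFun c := up fun i => ((n : ℂ) - i) * c i
  map_add' x y := by ext i; cases i <;> simp [mul_add]
  map_smul' r x := by ext i; cases i <;> simp <;> ring

def opF : (ℕ → ℂ) →ₗ[ℂ] (ℕ → ℂ) where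
  toFun c i := ((i : ℂ) + 1) * c (i + 1)
  map_add' x y := by ext i; simp [mul_add]
  map_smul' r x := by ext i; simp; ring

def opUp : (ℕ → ℂ) →ₗ[ℂ] (ℕ → ℂ) where
  toFun c := up c
  map_add' x y := by ext i; cases i <;> simp
  map_smul' r x := by ext i; cases i <;> simp

@[simp] lemma opA_apply (c : ℕ → ℂ) (i : ℕ) : opA c i = (i : ℂ) * c i := rfl
@[simp] lemma opD_apply (n : ℕ) (c : ℕ → ℂ) (i : ℕ) : opD n c i = ((n : ℂ) - i) * c i := rfl
@[simp] lemma opE_zero (n : ℕ) (c : ℕ → ℂ) : opE n c 0 = 0 := rfl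
@[simp] lemma opE_succ (n : ℕ) (c : ℕ → ℂ) (i : ℕ) : opE n c (i + 1) = ((n : ℂ) - i) * c i := rfl
@[simp] lemma opF_apply (c : ℕ → ℂ) (i : ℕ) : opF c i = ((i : ℂ) + 1) * c (i + 1) := rfl
@[simp] lemma opUp_zero (c : ℕ → ℂ) : opUp c 0 = 0 := rfl
@[simp] lemma opUp_succ (c : ℕ → ℂ) (i : ℕ) : opUp c (i + 1) = c i := rfl

lemma opA_mem {n : ℕ} : ∀ c ∈ Wn n, opA c ∈ Wn n := fun c hc i hi => by simp [hc i hi]
lemma opD_mem {n : ℕ} (m : ℕ) : ∀ c ∈ Wn n, opD m c ∈ Wn n := fun c hc i hi => by simp [hc i hi]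
lemma opE_mem {n : ℕ} : ∀ c ∈ Wn n, opE n c ∈ Wn n := fun c hc i hi => by
  cases i with
  | zero => simp
  | succ i =>
    rw [opE_succ]
    rcases Nat.lt_succ_iff_lt_or_eq.1 hi with h | h
    · rw [hc i h, mul_zero]
    · rw [h, sub_self, zero_mul]
lemma opF_mem {n : ℕ} : ∀ c ∈ Wn n, opF c ∈ Wn n := fun c hc i hi => by
  rw [opF_apply, hc (i + 1) (by omega), mul_zero]

/-- `V n = Sym^n ℂ²`. -/
def V (n : ℕ) : UM where
  carrier := Wn n
  a := opA.restrict opA_mem
  d := (opD n).restrict (opD_mem n)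
  e := (opE n).restrict opE_mem
  f := opF.restrict opF_mem
  rel := by
    constructor
    · refine LinearMap.ext fun c => Subtype.ext (funext fun i => ?_)
      simp; ring
    · refine LinearMap.ext fun c => Subtype.ext (funext fun i => ?_)
      cases i <;> simp <;> ring
    · refine LinearMap.ext fun c => Subtype.ext (funext fun i => ?_)
      cases i <;> simp <;> ring
    · refine LinearMap.ext fun c => Subtype.ext (funext fun i => ?_)
      simp; ring
    · refine LinearMap.ext fun c => Subtype.ext (funext fun i => ?_)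
      simp; ring
    · refine LinearMap.ext fun c => Subtype.ext (funext fun i => ?_)
      cases i <;> simp <;> ring

/-- underlying sequence -/
def vl {n : ℕ} (c : (V n).carrier) : ℕ → ℂ := (c : Wn n).1
/-- constructor -/
def mkV {n : ℕ} (g : ℕ → ℂ) (h : g ∈ Wn n) : (V n).carrier := (⟨g, h⟩ : Wn n)
/-- first slot -/
def s0 {n : ℕ} (v : (V n).tw.carrier) : (V n).carrier := (v : Fin 2 → Wn n) 0
/-- second slot -/
def s1 {n : ℕ} (v : (V n).tw.carrier) : (V n).carrier := (v : Fin 2 → Wn n) 1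
/-- constructor -/
def mkT {n : ℕ} (x y : (V n).carrier) : (V n).tw.carrier := (![x, y] : Fin 2 → Wn n)

section basic

variable {n : ℕ}

lemma vl_out (c : (V n).carrier) {i : ℕ} (hi : n < i) : vl c i = 0 := (c : Wn n).2 i hi
lemma vl_mem (c : (V n).carrier) : vl c ∈ Wn n := (c : Wn n).2
lemma vl_mkV (g : ℕ → ℂ) (h : g ∈ Wn n) : vl (mkV g h) = g := rfl
lemma s0_mkT (x y : (V n).carrier) : s0 (mkT x y) = x := rfl
lemma s1_mkT (x y : (V n).carrier) : s1 (mkT x y) = y := rfl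
lemma vl_zero (i : ℕ) : vl (0 : (V n).carrier) i = 0 := rfl
lemma s0_zero : s0 (0 : (V n).tw.carrier) = 0 := rfl
lemma s1_zero : s1 (0 : (V n).tw.carrier) = 0 := rfl

lemma V_a_val (c : (V n).carrier) (i : ℕ) : vl ((V n).a c) i = (i : ℂ) * vl c i := rfl
lemma V_d_val (c : (V n).carrier) (i : ℕ) : vl ((V n).d c) i = ((n : ℂ) - i) * vl c i := rfl
lemma V_e_zero (c : (V n).carrier) : vl ((V n).e c) 0 = 0 := rfl
lemma V_e_succ (c : (V n).carrier) (i : ℕ) :
    vl ((V n).e c) (i + 1) = ((n : ℂ) - i) * vl c i := rfl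
lemma V_f_val (c : (V n).carrier) (i : ℕ) :
    vl ((V n).f c) i = ((i : ℂ) + 1) * vl c (i + 1) := rfl

lemma V_ext {x y : (V n).carrier} (h : ∀ i, vl x i = vl y i) : x = y :=
  Subtype.ext (funext h)

lemma tw_ext {v w : (V n).tw.carrier}
    (h0 : ∀ i, vl (s0 v) i = vl (s0 w) i)
    (h1 : ∀ i, vl (s1 v) i = vl (s1 w) i) : v = w := by
  funext j
  fin_cases j
  · exact V_ext h0
  · exact V_ext h1

end basic

lemma Wn_succ {n : ℕ} {c : ℕ → ℂ} (hc : c ∈ Wn n) : c ∈ Wn (n + 1) := fun i hi =>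
  hc i (by omega)

lemma up_mem {n : ℕ} {c : ℕ → ℂ} (hc : c ∈ Wn n) : - opUp c ∈ Wn (n + 1) := fun i hi => by
  cases i with
  | zero => simp
  | succ i => rw [Pi.neg_apply, opUp_succ, hc i (by omega), neg_zero]

/-- `m_i ↦ (m_i, - m_{i+1})` -/
def inj' (n : ℕ) : (V n).carrier →ₗ[ℂ] (V (n + 1)).tw.carrier where
  toFun c := mkT (mkV (vl c) (Wn_succ (vl_mem c))) (mkV (- opUp (vl c)) (up_mem (vl_mem c)))
  map_add' x y := by
    refine tw_ext (fun i => rfl) fun j => ?_
    change -(opUp (vl x + vl y) j) = -(opUp (vl x) j) + -(opUp (vl y) j)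
    rw [map_add, Pi.add_apply]; ring
  map_smul' r x := by
    refine tw_ext (fun i => rfl) fun j => ?_
    change -(opUp (r • vl x) j) = r * -(opUp (vl x) j)
    rw [map_smul, Pi.smul_apply, smul_eq_mul]; ring

lemma prj_mem {n : ℕ} (v : (V (n + 1)).tw.carrier) :
    (fun i : ℕ => ((n : ℂ) + 1 - i) * vl (s0 v) i - ((i : ℂ) + 1) * vl (s1 v) (i + 1)) ∈ Wn n := by
  intro i hi
  change ((n : ℂ) + 1 - i) * vl (s0 v) i - ((i : ℂ) + 1) * vl (s1 v) (i + 1) = 0
  rw [vl_out (s1 v) (i := i + 1) (by omega), mul_zero, sub_zero]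
  rcases Nat.lt_or_ge (n + 1) i with h | h
  · rw [vl_out (s0 v) h, mul_zero]
  · rw [show i = n + 1 by omega]
    push_cast
    rw [sub_self, zero_mul]

/-- slot 1: `m_i ↦ (n + 1 - i) m_i`, slot 2: `m_i ↦ - i m_{i-1}` -/
def prj' (n : ℕ) : (V (n + 1)).tw.carrier →ₗ[ℂ] (V n).carrier where
  toFun v := mkV _ (prj_mem v)
  map_add' x y := by
    refine V_ext fun j => ?_
    change ((n : ℂ) + 1 - j) * (vl (s0 x) j + vl (s0 y) j) -
      ((j : ℂ) + 1) * (vl (s1 x) (j + 1) + vl (s1 y) (j + 1)) =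
      (((n : ℂ) + 1 - j) * vl (s0 x) j - ((j : ℂ) + 1) * vl (s1 x) (j + 1)) +
      (((n : ℂ) + 1 - j) * vl (s0 y) j - ((j : ℂ) + 1) * vl (s1 y) (j + 1))
    ring
  map_smul' r x := by
    refine V_ext fun j => ?_
    change ((n : ℂ) + 1 - j) * (r * vl (s0 x) j) - ((j : ℂ) + 1) * (r * vl (s1 x) (j + 1)) =
      r * (((n : ℂ) + 1 - j) * vl (s0 x) j - ((j : ℂ) + 1) * vl (s1 x) (j + 1))
    ring

lemma inj'_zero (n : ℕ) (c : (V n).carrier) (i : ℕ) : vl (s0 (inj' n c)) i = vl c i := rfl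
lemma inj'_one_zero (n : ℕ) (c : (V n).carrier) : vl (s1 (inj' n c)) 0 = 0 := by
  change -(opUp (vl c) 0) = 0
  simp
lemma inj'_one_succ (n : ℕ) (c : (V n).carrier) (i : ℕ) :
    vl (s1 (inj' n c)) (i + 1) = - vl c i := rfl
lemma prj'_val (n : ℕ) (v : (V (n + 1)).tw.carrier) (i : ℕ) :
    vl (prj' n v) i = ((n : ℂ) + 1 - i) * vl (s0 v) i - ((i : ℂ) + 1) * vl (s1 v) (i + 1) := rfl

section tw

variable {n : ℕ} (v : (V n).tw.carrier)

lemma tw_a_zero (i : ℕ) : vl (s0 ((V n).tw.a v)) i = (i : ℂ) * vl (s0 v) i := by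
  change (i : ℂ) * vl (s0 v) i + 0 = _
  ring
lemma tw_a_one (i : ℕ) : vl (s1 ((V n).tw.a v)) i = ((i : ℂ) - 1) * vl (s1 v) i := by
  change 0 + ((i : ℂ) * vl (s1 v) i - vl (s1 v) i) = _
  ring
lemma tw_d_zero (i : ℕ) :
    vl (s0 ((V n).tw.d v)) i = ((n : ℂ) - i - 1) * vl (s0 v) i := by
  change (((n : ℂ) - i) * vl (s0 v) i - vl (s0 v) i) + 0 = _
  ring
lemma tw_d_one (i : ℕ) :
    vl (s1 ((V n).tw.d v)) i = ((n : ℂ) - i) * vl (s1 v) i := by
  change 0 + ((n : ℂ) - i) * vl (s1 v) i = _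
  ring
lemma tw_e_zero_zero : vl (s0 ((V n).tw.e v)) 0 = vl (s1 v) 0 := by
  change 0 + vl (s1 v) 0 = _
  ring
lemma tw_e_zero_succ (i : ℕ) : vl (s0 ((V n).tw.e v)) (i + 1) =
    ((n : ℂ) - i) * vl (s0 v) i + vl (s1 v) (i + 1) := rfl
lemma tw_e_one_zero : vl (s1 ((V n).tw.e v)) 0 = 0 := by
  change (0 : ℂ) + 0 = _
  ring
lemma tw_e_one_succ (i : ℕ) : vl (s1 ((V n).tw.e v)) (i + 1) =
    ((n : ℂ) - i) * vl (s1 v) i := by
  change (0 : ℂ) + ((n : ℂ) - i) * vl (s1 v) i = _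
  ring
lemma tw_f_zero (i : ℕ) : vl (s0 ((V n).tw.f v)) i =
    ((i : ℂ) + 1) * vl (s0 v) (i + 1) := by
  change ((i : ℂ) + 1) * vl (s0 v) (i + 1) + 0 = _
  ring
lemma tw_f_one (i : ℕ) : vl (s1 ((V n).tw.f v)) i =
    vl (s0 v) i + ((i : ℂ) + 1) * vl (s1 v) (i + 1) := rfl
lemma θ_zero (i : ℕ) : vl (s0 ((V n).θ v)) i =
    ((i : ℂ) + 1) * (vl (s0 v) i + vl (s1 v) (i + 1)) := by
  change ((i : ℂ) * vl (s0 v) i + vl (s0 v) i) + ((i : ℂ) + 1) * vl (s1 v) (i + 1) = _
  ring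
lemma θ_one_zero : vl (s1 ((V n).θ v)) 0 = ((n : ℂ) + 1) * vl (s1 v) 0 := by
  change (0 : ℂ) + (((n : ℂ) - (0 : ℕ)) * vl (s1 v) 0 + vl (s1 v) 0) = _
  push_cast
  ring
lemma θ_one_succ (i : ℕ) : vl (s1 ((V n).θ v)) (i + 1) =
    ((n : ℂ) - i) * (vl (s0 v) i + vl (s1 v) (i + 1)) := by
  change ((n : ℂ) - i) * vl (s0 v) i +
    (((n : ℂ) - (i + 1 : ℕ)) * vl (s1 v) (i + 1) + vl (s1 v) (i + 1)) = _
  push_cast
  ring

end tw

lemma inj'_hom (n : ℕ) : IsUHom (inj' n) where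
  a c := by
    refine tw_ext (fun i => ?_) (fun i => ?_)
    · rw [tw_a_zero, inj'_zero, inj'_zero, V_a_val]
    · cases i with
      | zero => rw [tw_a_one, inj'_one_zero, inj'_one_zero, mul_zero]
      | succ i => rw [tw_a_one, inj'_one_succ, inj'_one_succ, V_a_val]; push_cast; ring
  d c := by
    refine tw_ext (fun i => ?_) (fun i => ?_)
    · rw [tw_d_zero, inj'_zero, inj'_zero, V_d_val]; push_cast; ring
    · cases i with
      | zero => rw [tw_d_one, inj'_one_zero, inj'_one_zero, mul_zero]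
      | succ i => rw [tw_d_one, inj'_one_succ, inj'_one_succ, V_d_val]; push_cast; ring
  e c := by
    refine tw_ext (fun i => ?_) (fun i => ?_)
    · cases i with
      | zero => rw [tw_e_zero_zero, inj'_zero, inj'_one_zero, V_e_zero]
      | succ i =>
        rw [tw_e_zero_succ, inj'_zero, inj'_zero, inj'_one_succ, V_e_succ]; push_cast; ring
    · cases i with
      | zero => rw [tw_e_one_zero, inj'_one_zero]
      | succ i =>
        rw [tw_e_one_succ, inj'_one_succ]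
        cases i with
        | zero => rw [inj'_one_zero, V_e_zero]; ring
        | succ i => rw [inj'_one_succ, V_e_succ]; push_cast; ring
  f c := by
    refine tw_ext (fun i => ?_) (fun i => ?_)
    · rw [tw_f_zero, inj'_zero, inj'_zero, V_f_val]
    · cases i with
      | zero => rw [tw_f_one, inj'_one_zero, inj'_zero, inj'_one_succ]; push_cast; ring
      | succ i =>
        rw [tw_f_one, inj'_one_succ, inj'_zero, inj'_one_succ, V_f_val]; push_cast; ring

lemma prj'_hom (n : ℕ) : IsUHom (prj' n) where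
  a v := by
    refine V_ext fun i => ?_
    rw [prj'_val, V_a_val, prj'_val, tw_a_zero, tw_a_one]; push_cast; ring
  d v := by
    refine V_ext fun i => ?_
    rw [prj'_val, V_d_val, prj'_val, tw_d_zero, tw_d_one]; push_cast; ring
  e v := by
    refine V_ext fun i => ?_
    cases i with
    | zero =>
      rw [prj'_val, V_e_zero, tw_e_zero_zero, tw_e_one_succ]; push_cast; ring
    | succ i =>
      rw [prj'_val, V_e_succ, prj'_val, tw_e_zero_succ, tw_e_one_succ]; push_cast; ring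
  f v := by
    refine V_ext fun i => ?_
    rw [prj'_val, V_f_val, prj'_val, tw_f_zero, tw_f_one]; push_cast; ring

lemma V_finite (n : ℕ) : Module.Finite ℂ (V n).carrier := by
  let g : Wn n →ₗ[ℂ] (Fin (n + 1) → ℂ) :=
    { toFun := fun c i => c.1 i
      map_add' := fun x y => rfl
      map_smul' := fun r x => rfl }
  refine Module.Finite.of_injective g fun x y h => Subtype.ext (funext fun i => ?_)
  by_cases hi : i < n + 1
  · exact congrFun h ⟨i, hi⟩
  · rw [x.2 i (by omega), y.2 i (by omega)]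

lemma V_nontrivial (n : ℕ) : Nontrivial (V n).carrier := by
  have hm : (fun i => if i = 0 then (1 : ℂ) else 0) ∈ Wn n := fun i hi => if_neg (by omega)
  refine ⟨⟨mkV _ hm, 0, ?_⟩⟩
  intro h
  have : (1 : ℂ) = 0 := congrFun (congrArg vl h) 0
  exact one_ne_zero this

lemma θ_V0 (v : (V 0).tw.carrier) : (V 0).θ v = v := by
  refine tw_ext (fun i => ?_) (fun i => ?_)
  · rw [θ_zero, vl_out (s1 v) (i := i + 1) (by omega)]
    cases i with
    | zero => push_cast; ring
    | succ i => rw [vl_out (s0 v) (i := i + 1) (by omega)]; ring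
  · cases i with
    | zero => rw [θ_one_zero]; push_cast; ring
    | succ i =>
      rw [θ_one_succ, vl_out (s1 v) (i := i + 1) (by omega)]
      cases i with
      | zero => push_cast; ring
      | succ i => rw [vl_out (s0 v) (i := i + 1) (by omega)]; ring

lemma inj'_injective (n : ℕ) : Function.Injective (inj' n) := by
  intro x y h
  refine V_ext fun i => ?_
  rw [← inj'_zero n x, ← inj'_zero n y, h]

lemma exact_inj_θ (n : ℕ) : Function.Exact (inj' n) (V (n + 1)).θ := by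
  intro v
  constructor
  · intro h
    have h0 : ∀ i : ℕ, vl (s0 v) i + vl (s1 v) (i + 1) = 0 := by
      intro i
      have h1 := θ_zero v i
      rw [h, s0_zero, vl_zero] at h1
      exact (mul_eq_zero.1 h1.symm).resolve_left (by exact_mod_cast Nat.succ_ne_zero i)
    have h1 : vl (s1 v) 0 = 0 := by
      have h1 := θ_one_zero v
      rw [h, s1_zero, vl_zero] at h1
      exact (mul_eq_zero.1 h1.symm).resolve_left (by exact_mod_cast Nat.succ_ne_zero (n + 1))
    have h2 : vl (s0 v) ∈ Wn n := by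
      intro i hi
      rcases Nat.lt_or_ge (n + 1) i with h | h
      · exact vl_out (s0 v) h
      · have := h0 i
        rwa [vl_out (s1 v) (i := i + 1) (by omega), add_zero] at this
    refine ⟨mkV _ h2, tw_ext (fun i => rfl) (fun i => ?_)⟩
    cases i with
    | zero => rw [inj'_one_zero, h1]
    | succ i =>
      rw [inj'_one_succ, vl_mkV]
      exact neg_eq_of_add_eq_zero_right (h0 i)
  · rintro ⟨c, rfl⟩
    refine tw_ext (fun i => ?_) (fun i => ?_)
    · rw [θ_zero, inj'_zero, inj'_one_succ, s0_zero, vl_zero]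
      ring
    · rw [s1_zero, vl_zero]
      cases i with
      | zero => rw [θ_one_zero, inj'_one_zero, mul_zero]
      | succ i => rw [θ_one_succ, inj'_zero, inj'_one_succ]; ring

lemma exact_θ_prj (n : ℕ) : Function.Exact (V (n + 1)).θ (prj' n) := by
  intro v
  constructor
  · intro h
    have h0 : ∀ i : ℕ, ((n : ℂ) + 1 - i) * vl (s0 v) i =
        ((i : ℂ) + 1) * vl (s1 v) (i + 1) := by
      intro i
      have h1 := prj'_val n v i
      rw [h, vl_zero] at h1
      exact sub_eq_zero.1 h1.symm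
    have hi : ∀ i : ℕ, ((i : ℂ) + 1) ≠ 0 := fun i => by exact_mod_cast Nat.succ_ne_zero i
    have m0 : (fun i : ℕ => vl (s0 v) i / ((i : ℂ) + 1)) ∈ Wn (n + 1) := fun i hi => by
      change vl (s0 v) i / ((i : ℂ) + 1) = 0
      rw [vl_out (s0 v) hi, zero_div]
    have m1 : (fun i : ℕ => if i = 0 then vl (s1 v) 0 / ((n : ℂ) + 1 + 1) else 0) ∈
        Wn (n + 1) := fun i hi => if_neg (by omega)
    refine ⟨mkT (mkV _ m0) (mkV _ m1), tw_ext (fun i => ?_) (fun i => ?_)⟩
    · rw [θ_zero, s0_mkT, s1_mkT, vl_mkV, vl_mkV]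
      change ((i : ℂ) + 1) * (vl (s0 v) i / ((i : ℂ) + 1) +
        (if i + 1 = 0 then vl (s1 v) 0 / ((n : ℂ) + 1 + 1) else 0)) = _
      rw [if_neg (Nat.succ_ne_zero i), add_zero, mul_div_cancel₀ _ (hi i)]
    · cases i with
      | zero =>
        rw [θ_one_zero, s1_mkT, vl_mkV]
        change (((n + 1 : ℕ) : ℂ) + 1) * (if (0 : ℕ) = 0 then
          vl (s1 v) 0 / ((n : ℂ) + 1 + 1) else 0) = _
        rw [if_pos rfl]
        push_cast
        have h3 : ((n : ℂ) + 1 + 1) ≠ 0 := by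
          have := hi (n + 1)
          push_cast at this
          exact this
        rw [mul_div_cancel₀ _ h3]
      | succ i =>
        rw [θ_one_succ, s0_mkT, s1_mkT, vl_mkV, vl_mkV]
        change (((n + 1 : ℕ) : ℂ) - i) * (vl (s0 v) i / ((i : ℂ) + 1) +
          (if i + 1 = 0 then vl (s1 v) 0 / ((n : ℂ) + 1 + 1) else 0)) = _
        rw [if_neg (Nat.succ_ne_zero i), add_zero]
        push_cast
        rw [← mul_div_assoc, h0 i, mul_div_assoc, mul_div_cancel₀ _ (hi i)]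
  · rintro ⟨w, rfl⟩
    refine V_ext fun i => ?_
    rw [prj'_val, θ_zero, θ_one_succ, vl_zero]
    push_cast
    ring

lemma prj'_surjective (n : ℕ) : Function.Surjective (prj' n) := by
  intro c
  have m0 : (fun i : ℕ => vl c i / ((n : ℂ) + 1 - i)) ∈ Wn (n + 1) := fun i hi => by
    change vl c i / ((n : ℂ) + 1 - i) = 0
    rw [vl_out c (by omega), zero_div]
  refine ⟨mkT (mkV _ m0) 0, V_ext fun i => ?_⟩
  rw [prj'_val, s0_mkT, s1_mkT, vl_mkV, vl_zero, mul_zero, sub_zero]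
  by_cases h : i = n + 1
  · rw [vl_out c (by omega), zero_div, mul_zero]
  · refine mul_div_cancel₀ _ ?_
    intro h0
    apply h
    have : ((n + 1 : ℕ) : ℂ) = (i : ℂ) := by push_cast; exact sub_eq_zero.1 h0
    exact (Nat.cast_injective this).symm

/-- **B1** -/
theorem vn : VnStmt V := by
  refine ⟨V_finite, V_nontrivial, ?_, fun n => ⟨inj' n, prj' n, inj'_hom n, prj'_hom n,
    inj'_injective n, exact_inj_θ n, exact_θ_prj n, prj'_surjective n⟩⟩
  have : ((V 0).θ : (V 0).tw.carrier → (V 0).tw.carrier) = id := funext θ_V0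
  rw [this]
  exact Function.bijective_id

end Crest.Agent.R178B
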